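import Vale.Agent.P291.Link.LCore
import Vale.Agent.P291.H906.Split

/-!
# P291, block LINK, part L1: a point of `μ⁻¹(ν)` gives a semistable point of `μ⁻¹(0)`
-/

open Finset

set_option linter.unusedSectionVars false

namespace Vale.Agent.P291.Link

namespace LOne

open H906.Sp

variable {k : Type} [Field k] {I E L : Type} {s t : E → I}
  {c : L → I} {V : I → Type} [∀ i, AddCommGroup (V i)] [∀ i, Module k (V i)]

/-- an admissible filtration -/
structure Fil (z : Rp k s t c V) where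
  F : ∀ i, ℤ → Submodule k (V i)
  N : ℕ
  mono : ∀ i, Monotone (F i)
  bot : ∀ i n, n < -(N : ℤ) → F i n = ⊥
  top : ∀ i n, (N : ℤ) ≤ n → F i n = ⊤
  hx : ∀ e n, ∀ u ∈ F (s e) n, z.x e u ∈ F (t e) (n + 1)
  hy : ∀ e n, ∀ u ∈ F (t e) n, z.y e u ∈ F (s e) (n + 1)
  hi : ∀ l, z.i l ∈ F (c l) 1
  hj : ∀ l, ∀ u ∈ F (c l) (-2), z.j l u = 0

section split

variable {z : Rp k s t c V} (f : Fil z)

/-- a homogeneous splitting of a filtration -/
structure Spl (f : Fil z) where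
  P : ∀ i, ℤ → (V i →ₗ[k] V i)
  orth : ∀ i m n, m ≠ n → P i m ∘ₗ P i n = 0
  idem : ∀ i n, P i n ∘ₗ P i n = P i n
  mem : ∀ i n u, P i n u ∈ f.F i n
  kill : ∀ i m n, m < n → ∀ u ∈ f.F i m, P i n u = 0
  gr : ∀ i n, ∀ u ∈ f.F i n, u - P i n u ∈ f.F i (n - 1)
  sum : ∀ i u, ∑ n ∈ Icc (-(f.N : ℤ)) f.N, P i n u = u
  out : ∀ i n, n ∉ Icc (-(f.N : ℤ)) f.N → P i n = 0

theorem exists_spl : Nonempty (Spl f) := by
  choose P h1 h2 h3 h4 h5 h6 h7 using fun i =>
    exists_split (f.F i) (f.mono i) f.N (f.bot i) (f.top i)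
  exact ⟨⟨P, h1, h2, h3, h4, h5, h6, h7⟩⟩

variable {f} (p : Spl f)

theorem Spl.PP (i : I) (m n : ℤ) (u : V i) : p.P i m (p.P i n u) = if m = n then p.P i n u else 0 := by
  split_ifs with h
  · subst h
    exact LinearMap.congr_fun (p.idem i m) u
  · exact LinearMap.congr_fun (p.orth i m n h) u

/-- the associated graded representation -/
noncomputable def Spl.z1 : Rp k s t c V where
  x e := ∑ n ∈ Icc (-(f.N : ℤ)) f.N, p.P (t e) (n + 1) ∘ₗ z.x e ∘ₗ p.P (s e) n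
  y e := ∑ n ∈ Icc (-(f.N : ℤ)) f.N, p.P (s e) (n + 1) ∘ₗ z.y e ∘ₗ p.P (t e) n
  j l := z.j l ∘ₗ p.P (c l) (-1)
  i l := p.P (c l) 1 (z.i l)

theorem Spl.x_apply (e : E) (u : V (s e)) :
    p.z1.x e u = ∑ n ∈ Icc (-(f.N : ℤ)) f.N, p.P (t e) (n + 1) (z.x e (p.P (s e) n u)) := by
  simp [Spl.z1]

theorem Spl.y_apply (e : E) (u : V (t e)) :
    p.z1.y e u = ∑ n ∈ Icc (-(f.N : ℤ)) f.N, p.P (s e) (n + 1) (z.y e (p.P (t e) n u)) := by
  simp [Spl.z1]

theorem Spl.xP (e : E) (m : ℤ) (u : V (s e)) :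
    p.z1.x e (p.P (s e) m u) = p.P (t e) (m + 1) (z.x e (p.P (s e) m u)) := by
  rw [p.x_apply]
  by_cases hm : m ∈ Icc (-(f.N : ℤ)) f.N
  · rw [Finset.sum_eq_single_of_mem m hm]
    · rw [p.PP, if_pos rfl]
    · intro n _ hn
      rw [p.PP, if_neg hn, map_zero, map_zero]
  · rw [p.out _ m hm]
    simp

theorem Spl.yP (e : E) (m : ℤ) (u : V (t e)) :
    p.z1.y e (p.P (t e) m u) = p.P (s e) (m + 1) (z.y e (p.P (t e) m u)) := by
  rw [p.y_apply]
  by_cases hm : m ∈ Icc (-(f.N : ℤ)) f.N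
  · rw [Finset.sum_eq_single_of_mem m hm]
    · rw [p.PP, if_pos rfl]
    · intro n _ hn
      rw [p.PP, if_neg hn, map_zero, map_zero]
  · rw [p.out _ m hm]
    simp

theorem Spl.Px (e : E) (m : ℤ) (u : V (s e)) :
    p.P (t e) (m + 1) (p.z1.x e u) = p.z1.x e (p.P (s e) m u) := by
  rw [p.xP, p.x_apply, map_sum]
  by_cases hm : m ∈ Icc (-(f.N : ℤ)) f.N
  · rw [Finset.sum_eq_single_of_mem m hm]
    · rw [p.PP, if_pos rfl]
    · intro n _ hn
      rw [p.PP, if_neg (by omega)]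
  · rw [p.out _ m hm, LinearMap.zero_apply, map_zero, map_zero]
    refine Finset.sum_eq_zero fun n hn => ?_
    rw [p.PP, if_neg]
    intro h
    apply hm
    have : m = n := by omega
    rwa [this]

theorem Spl.Py (e : E) (m : ℤ) (u : V (t e)) :
    p.P (s e) (m + 1) (p.z1.y e u) = p.z1.y e (p.P (t e) m u) := by
  rw [p.yP, p.y_apply, map_sum]
  by_cases hm : m ∈ Icc (-(f.N : ℤ)) f.N
  · rw [Finset.sum_eq_single_of_mem m hm]
    · rw [p.PP, if_pos rfl]
    · intro n _ hn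
      rw [p.PP, if_neg (by omega)]
  · rw [p.out _ m hm, LinearMap.zero_apply, map_zero, map_zero]
    refine Finset.sum_eq_zero fun n hn => ?_
    rw [p.PP, if_neg]
    intro h
    apply hm
    have : m = n := by omega
    rwa [this]

theorem Spl.x_sub (e : E) (n : ℤ) {u : V (s e)} (hu : u ∈ f.F (s e) n) :
    z.x e u - p.z1.x e u ∈ f.F (t e) n := by
  have h : z.x e u - p.z1.x e u = ∑ m ∈ Icc (-(f.N : ℤ)) f.N,
      (z.x e (p.P (s e) m u) - p.P (t e) (m + 1) (z.x e (p.P (s e) m u))) := by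
    rw [Finset.sum_sub_distrib, ← p.x_apply, ← map_sum, p.sum]
  rw [h]
  refine sum_mem fun m _ => ?_
  by_cases hmn : m ≤ n
  · have h2 := p.gr (t e) (m + 1) _ (f.hx e m _ (p.mem (s e) m u))
    rw [add_sub_cancel_right] at h2
    exact f.mono _ hmn h2
  · rw [p.kill (s e) n m (by omega) u hu]
    simp

theorem Spl.y_sub (e : E) (n : ℤ) {u : V (t e)} (hu : u ∈ f.F (t e) n) :
    z.y e u - p.z1.y e u ∈ f.F (s e) n := by
  have h : z.y e u - p.z1.y e u = ∑ m ∈ Icc (-(f.N : ℤ)) f.N,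
      (z.y e (p.P (t e) m u) - p.P (s e) (m + 1) (z.y e (p.P (t e) m u))) := by
    rw [Finset.sum_sub_distrib, ← p.y_apply, ← map_sum, p.sum]
  rw [h]
  refine sum_mem fun m _ => ?_
  by_cases hmn : m ≤ n
  · have h2 := p.gr (s e) (m + 1) _ (f.hy e m _ (p.mem (t e) m u))
    rw [add_sub_cancel_right] at h2
    exact f.mono _ hmn h2
  · rw [p.kill (t e) n m (by omega) u hu]
    simp

theorem Spl.x1_mem (e : E) (n : ℤ) {u : V (s e)} (hu : u ∈ f.F (s e) n) :
    p.z1.x e u ∈ f.F (t e) (n + 1) := by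
  have h1 := f.hx e n u hu
  have h2 := f.mono (t e) (show n ≤ n + 1 by omega) (p.x_sub e n hu)
  have : p.z1.x e u = z.x e u - (z.x e u - p.z1.x e u) := by abel
  rw [this]
  exact sub_mem h1 h2

theorem Spl.y1_mem (e : E) (n : ℤ) {u : V (t e)} (hu : u ∈ f.F (t e) n) :
    p.z1.y e u ∈ f.F (s e) (n + 1) := by
  have h1 := f.hy e n u hu
  have h2 := f.mono (s e) (show n ≤ n + 1 by omega) (p.y_sub e n hu)
  have : p.z1.y e u = z.y e u - (z.y e u - p.z1.y e u) := by abel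
  rw [this]
  exact sub_mem h1 h2

theorem Spl.i_sub (l : L) : z.i l - p.z1.i l ∈ f.F (c l) 0 := p.gr (c l) 1 _ (f.hi l)

theorem Spl.j_eq (l : L) {u : V (c l)} (hu : u ∈ f.F (c l) (-1)) : z.j l u = p.z1.j l u := by
  have h := f.hj l _ (by simpa using p.gr (c l) (-1) u hu)
  rw [map_sub, sub_eq_zero] at h
  exact h

/-- degree two part of `x y` -/
theorem Spl.PxyP (e : E) (m : ℤ) (u : V (t e)) :
    p.P (t e) (m + 2) (z.x e (z.y e (p.P (t e) m u))) =
      p.P (t e) (m + 2) (p.z1.x e (p.z1.y e (p.P (t e) m u))) := by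
  rw [← sub_eq_zero, ← map_sub]
  apply p.kill (t e) (m + 1) (m + 2) (by omega)
  have h0 := p.mem (t e) m u
  have h1 := p.y_sub e m h0
  have h2 := f.hx e m _ h1
  have h3 := p.x_sub e (m + 1) (p.y1_mem e m h0)
  have h4 := add_mem h2 h3
  rw [map_sub] at h4
  convert h4 using 1
  abel

theorem Spl.PyxP (e : E) (m : ℤ) (u : V (s e)) :
    p.P (s e) (m + 2) (z.y e (z.x e (p.P (s e) m u))) =
      p.P (s e) (m + 2) (p.z1.y e (p.z1.x e (p.P (s e) m u))) := by
  rw [← sub_eq_zero, ← map_sub]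
  apply p.kill (s e) (m + 1) (m + 2) (by omega)
  have h0 := p.mem (s e) m u
  have h1 := p.x_sub e m h0
  have h2 := f.hy e m _ h1
  have h3 := p.y_sub e (m + 1) (p.x1_mem e m h0)
  have h4 := add_mem h2 h3
  rw [map_sub] at h4
  convert h4 using 1
  abel

theorem Spl.PxyP' (e : E) (m n : ℤ) (h : n ≠ m + 2) (u : V (t e)) :
    p.P (t e) n (p.z1.x e (p.z1.y e (p.P (t e) m u))) = 0 := by
  rw [← p.Py, ← p.Px, p.PP, if_neg (by omega)]

theorem Spl.PyxP' (e : E) (m n : ℤ) (h : n ≠ m + 2) (u : V (s e)) :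
    p.P (s e) n (p.z1.y e (p.z1.x e (p.P (s e) m u))) = 0 := by
  rw [← p.Px, ← p.Py, p.PP, if_neg (by omega)]

end split

section mu

variable [Fintype E] [Fintype L]

theorem mu_eq (z : Rp k s t c V) [∀ i, FiniteDimensional k (V i)] (ξ : ∀ i, V i →ₗ[k] V i) :
    z.mu ξ = ∑ e, (LinearMap.trace k _ (z.y e ∘ₗ ξ (t e) ∘ₗ z.x e) -
      LinearMap.trace k _ (z.y e ∘ₗ z.x e ∘ₗ ξ (s e))) - ∑ l, z.j l (ξ (c l) (z.i l)) := by
  unfold Rp.mu
  congr 1
  refine Finset.sum_congr rfl fun e _ => ?_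
  rw [LinearMap.comp_sub, map_sub]

theorem mu_sum (z : Rp k s t c V) [∀ i, FiniteDimensional k (V i)] {ι : Type} (S : Finset ι)
    (ξ : ι → ∀ i, V i →ₗ[k] V i) :
    z.mu (fun i => ∑ a ∈ S, ξ a i) = ∑ a ∈ S, z.mu (ξ a) := by
  classical
  induction S using Finset.induction_on with
  | empty =>
    rw [mu_eq]
    simp
  | insert a S ha ih =>
    rw [Finset.sum_insert ha, ← ih, mu_eq, mu_eq, mu_eq]
    simp only [Finset.sum_insert ha, LinearMap.comp_add, LinearMap.add_comp, map_add,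
      LinearMap.add_apply, Finset.sum_add_distrib, Finset.sum_sub_distrib]
    ring

theorem trace_yx (z : Rp k s t c V) [∀ i, FiniteDimensional k (V i)] (e : E)
    (A B C' : V (t e) →ₗ[k] V (t e)) :
    LinearMap.trace k _ (z.y e ∘ₗ (A ∘ₗ B ∘ₗ C') ∘ₗ z.x e) =
      LinearMap.trace k _ ((C' ∘ₗ z.x e ∘ₗ z.y e ∘ₗ A) ∘ₗ B) := by
  have h1 : z.y e ∘ₗ (A ∘ₗ B ∘ₗ C') ∘ₗ z.x e = (z.y e ∘ₗ A ∘ₗ B) ∘ₗ (C' ∘ₗ z.x e) := by
    ext u; rfl
  have h2 : (C' ∘ₗ z.x e ∘ₗ z.y e ∘ₗ A) ∘ₗ B = (C' ∘ₗ z.x e) ∘ₗ (z.y e ∘ₗ A ∘ₗ B) := by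
    ext u; rfl
  rw [h1, h2, LinearMap.trace_comp_comm']

theorem trace_xy (z : Rp k s t c V) [∀ i, FiniteDimensional k (V i)] (e : E)
    (A B C' : V (s e) →ₗ[k] V (s e)) :
    LinearMap.trace k _ (z.y e ∘ₗ z.x e ∘ₗ (A ∘ₗ B ∘ₗ C')) =
      LinearMap.trace k _ ((C' ∘ₗ z.y e ∘ₗ z.x e ∘ₗ A) ∘ₗ B) := by
  have h1 : z.y e ∘ₗ z.x e ∘ₗ (A ∘ₗ B ∘ₗ C') = (z.y e ∘ₗ z.x e ∘ₗ A ∘ₗ B) ∘ₗ C' := by
    ext u; rfl
  have h2 : (C' ∘ₗ z.y e ∘ₗ z.x e ∘ₗ A) ∘ₗ B = C' ∘ₗ (z.y e ∘ₗ z.x e ∘ₗ A ∘ₗ B) := by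
    ext u; rfl
  rw [h1, h2, LinearMap.trace_comp_comm']

variable {z : Rp k s t c V} {f : Fil z} (p : Spl f)

/-- the associated graded representation is in `μ⁻¹(0)` -/
theorem mu_z1 [Fintype I] [∀ i, FiniteDimensional k (V i)] (ν : I → ℤ)
    (hz : ∀ ξ, z.mu ξ = ∑ i, (ν i : k) * LinearMap.trace k _ (ξ i)) (ξ : ∀ i, V i →ₗ[k] V i) :
    p.z1.mu ξ = 0 := by
  classical
  have hdec : ξ = fun i => ∑ a ∈ Icc (-(f.N : ℤ)) f.N ×ˢ Icc (-(f.N : ℤ)) f.N,
      p.P i a.1 ∘ₗ ξ i ∘ₗ p.P i a.2 := by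
    funext i
    ext u
    rw [LinearMap.sum_apply, Finset.sum_product]
    simp only [LinearMap.comp_apply]
    rw [Finset.sum_comm]
    have : ∀ n ∈ Icc (-(f.N : ℤ)) f.N, ∑ m ∈ Icc (-(f.N : ℤ)) f.N, p.P i m (ξ i (p.P i n u)) =
        ξ i (p.P i n u) := fun n _ => p.sum i _
    rw [Finset.sum_congr rfl this, ← map_sum, p.sum]
  rw [hdec, mu_sum p.z1]
  refine Finset.sum_eq_zero fun a _ => ?_
  obtain ⟨m, n⟩ := a
  by_cases hmn : n = m + 2
  · subst hmn
    have hkey : p.z1.mu (fun i => p.P i m ∘ₗ ξ i ∘ₗ p.P i (m + 2)) =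
        z.mu (fun i => p.P i m ∘ₗ ξ i ∘ₗ p.P i (m + 2)) := by
      rw [mu_eq, mu_eq]
      congr 1
      · refine Finset.sum_congr rfl fun e _ => ?_
        rw [trace_yx, trace_yx, trace_xy, trace_xy]
        have e1 : p.P (t e) (m + 2) ∘ₗ p.z1.x e ∘ₗ p.z1.y e ∘ₗ p.P (t e) m =
            p.P (t e) (m + 2) ∘ₗ z.x e ∘ₗ z.y e ∘ₗ p.P (t e) m := by
          ext u
          exact (p.PxyP e m u).symm
        have e2 : p.P (s e) (m + 2) ∘ₗ p.z1.y e ∘ₗ p.z1.x e ∘ₗ p.P (s e) m =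
            p.P (s e) (m + 2) ∘ₗ z.y e ∘ₗ z.x e ∘ₗ p.P (s e) m := by
          ext u
          exact (p.PyxP e m u).symm
        rw [e1, e2]
      · refine Finset.sum_congr rfl fun l _ => ?_
        simp only [LinearMap.comp_apply]
        show z.j l (p.P (c l) (-1) (p.P (c l) m (ξ (c l) (p.P (c l) (m + 2)
          (p.P (c l) 1 (z.i l)))))) = _
        rw [p.PP, p.PP]
        rcases lt_trichotomy m (-1) with h | h | h
        · rw [if_neg (by omega), map_zero]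
          symm
          exact f.hj l _ (f.mono _ (by omega) (p.mem (c l) m _))
        · subst h
          rw [if_pos rfl, if_pos (by norm_num)]
          norm_num
        · rw [if_neg (by omega), map_zero]
          symm
          rw [p.kill (c l) 1 (m + 2) (by omega) _ (f.hi l)]
          simp
    rw [hkey, hz]
    refine Finset.sum_eq_zero fun i _ => ?_
    have : LinearMap.trace k _ (p.P i m ∘ₗ ξ i ∘ₗ p.P i (m + 2)) = 0 := by
      have h1 : p.P i m ∘ₗ ξ i ∘ₗ p.P i (m + 2) = (p.P i m ∘ₗ ξ i) ∘ₗ p.P i (m + 2) := by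
        ext u; rfl
      rw [h1, LinearMap.trace_comp_comm', ← LinearMap.comp_assoc, p.orth i (m + 2) m (by omega),
        LinearMap.zero_comp, map_zero]
    show (ν i : k) * LinearMap.trace k _ (p.P i m ∘ₗ ξ i ∘ₗ p.P i (m + 2)) = 0
    rw [this, mul_zero]
  · rw [mu_eq]
    have e1 : ∀ e, LinearMap.trace k _
        (p.z1.y e ∘ₗ (p.P (t e) m ∘ₗ ξ (t e) ∘ₗ p.P (t e) n) ∘ₗ p.z1.x e) = 0 := by
      intro e
      rw [trace_yx]
      have : p.P (t e) n ∘ₗ p.z1.x e ∘ₗ p.z1.y e ∘ₗ p.P (t e) m = 0 := by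
        ext u
        exact p.PxyP' e m n hmn u
      rw [this, LinearMap.zero_comp, map_zero]
    have e2 : ∀ e, LinearMap.trace k _
        (p.z1.y e ∘ₗ p.z1.x e ∘ₗ (p.P (s e) m ∘ₗ ξ (s e) ∘ₗ p.P (s e) n)) = 0 := by
      intro e
      rw [trace_xy]
      have : p.P (s e) n ∘ₗ p.z1.y e ∘ₗ p.z1.x e ∘ₗ p.P (s e) m = 0 := by
        ext u
        exact p.PyxP' e m n hmn u
      rw [this, LinearMap.zero_comp, map_zero]
    have e3 : ∀ l, p.z1.j l ((p.P (c l) m ∘ₗ ξ (c l) ∘ₗ p.P (c l) n) (p.z1.i l)) = 0 := by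
      intro l
      simp only [LinearMap.comp_apply]
      show z.j l (p.P (c l) (-1) (p.P (c l) m (ξ (c l) (p.P (c l) n
          (p.P (c l) 1 (z.i l)))))) = 0
      rw [p.PP, p.PP]
      by_cases h1 : -1 = m
      · rw [if_pos h1, if_neg (by omega)]
        simp
      · rw [if_neg h1, map_zero]
    rw [Finset.sum_eq_zero fun e _ => by rw [e1, e2, sub_zero], Finset.sum_eq_zero fun l _ => e3 l,
      sub_zero]

end mu

section dims

variable [Fintype I] [Fintype E] [Fintype L] [∀ i, FiniteDimensional k (V i)]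

/-- `ν · dim U` -/
noncomputable def nd (ν : I → ℤ) (U : ∀ i, Submodule k (V i)) : ℤ :=
  ∑ i, ν i * (Module.finrank k (U i) : ℤ)

theorem tr_proj {W : Type} [AddCommGroup W] [Module k W] [FiniteDimensional k W]
    (U : Submodule k W) (q : W →ₗ[k] W) (h1 : ∀ u, q u ∈ U) (h2 : ∀ u ∈ U, q u = u) :
    LinearMap.trace k _ q = (Module.finrank k U : k) :=
  LinearMap.IsProj.trace ⟨h1, h2⟩

theorem mu_proj (z : Rp k s t c V) (U : ∀ i, Submodule k (V i)) (hU : z.Sub U)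
    (q : ∀ i, V i →ₗ[k] V i) (h1 : ∀ i u, q i u ∈ U i) (h2 : ∀ i, ∀ u ∈ U i, q i u = u) :
    z.mu q = - ∑ l, z.j l (q (c l) (z.i l)) := by
  rw [mu_eq, Finset.sum_eq_zero, zero_sub]
  intro e _
  have e1 : z.y e ∘ₗ z.x e ∘ₗ q (s e) = (z.y e ∘ₗ q (t e) ∘ₗ z.x e) ∘ₗ q (s e) := by
    ext u
    simp only [LinearMap.comp_apply]
    rw [h2 (t e) _ (hU.1 e (h1 (s e) u))]
  have e2 : q (s e) ∘ₗ (z.y e ∘ₗ q (t e) ∘ₗ z.x e) = z.y e ∘ₗ q (t e) ∘ₗ z.x e := by
    ext u
    simp only [LinearMap.comp_apply]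
    rw [h2 (s e) _ (hU.2 e (h1 (t e) _))]
  rw [e1, LinearMap.trace_comp_comm' (q (s e)) (z.y e ∘ₗ q (t e) ∘ₗ z.x e), e2, sub_self]

theorem nd_sub_ker [CharZero k] (z : Rp k s t c V) (ν : I → ℤ)
    (hz : ∀ ξ, z.mu ξ = ∑ i, (ν i : k) * LinearMap.trace k _ (ξ i))
    (U : ∀ i, Submodule k (V i)) (hU : z.Sub U) (hj : ∀ l, ∀ u ∈ U (c l), z.j l u = 0) :
    nd ν U = 0 := by
  choose q h1 h2 using fun i => exists_proj (U i)
  have h := hz q
  rw [mu_proj z U hU q h1 h2, Finset.sum_eq_zero fun l _ => hj l _ (h1 _ _), neg_zero] at h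
  have h3 : ((nd ν U : ℤ) : k) = 0 := by
    rw [h]
    unfold nd
    push_cast
    refine Finset.sum_congr rfl fun i _ => ?_
    rw [tr_proj (U i) (q i) (h1 i) (h2 i)]
  exact_mod_cast h3

theorem nd_sub_i [CharZero k] (z : Rp k s t c V) (ν : I → ℤ)
    (hz : ∀ ξ, z.mu ξ = ∑ i, (ν i : k) * LinearMap.trace k _ (ξ i))
    (U : ∀ i, Submodule k (V i)) (hU : z.Sub U) (hi : ∀ l, z.i l ∈ U (c l)) :
    nd ν U = nd ν (fun i => (⊤ : Submodule k (V i))) := by
  choose q h1 h2 using fun i => exists_proj (U i)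
  have h := hz q
  rw [mu_proj z U hU q h1 h2] at h
  have h' := hz fun i => LinearMap.id
  rw [mu_proj z (fun _ => ⊤) ⟨fun _ _ _ => trivial, fun _ _ _ => trivial⟩ _ (fun _ _ => trivial)
    (fun _ _ _ => rfl)] at h'
  have h3 : ((nd ν U : ℤ) : k) = (nd ν (fun i => (⊤ : Submodule k (V i))) : ℤ) := by
    have e1 : ((nd ν U : ℤ) : k) = ∑ i, (ν i : k) * LinearMap.trace k _ (q i) := by
      unfold nd
      push_cast
      refine Finset.sum_congr rfl fun i _ => ?_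
      rw [tr_proj (U i) (q i) (h1 i) (h2 i)]
    have e2 : ((nd ν (fun i => (⊤ : Submodule k (V i))) : ℤ) : k) =
        ∑ i, (ν i : k) * LinearMap.trace k _ (LinearMap.id : V i →ₗ[k] V i) := by
      unfold nd
      push_cast
      refine Finset.sum_congr rfl fun i _ => ?_
      rw [tr_proj (⊤ : Submodule k (V i)) LinearMap.id (fun _ => trivial) (fun _ _ => rfl)]
    rw [e1, e2, ← h, ← h']
    congr 1
    refine Finset.sum_congr rfl fun l _ => ?_
    rw [h2 (c l) _ (hi l)]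
    rfl
  exact_mod_cast h3

theorem nd_abs (ν : I → ℤ) (U : ∀ i, Submodule k (V i)) :
    |nd ν U| ≤ ∑ i, |ν i| * (Module.finrank k (V i) : ℤ) := by
  unfold nd
  refine (Finset.abs_sum_le_sum_abs _ _).trans (Finset.sum_le_sum fun i _ => ?_)
  rw [abs_mul, Nat.abs_cast]
  have : (Module.finrank k (U i) : ℤ) ≤ Module.finrank k (V i) := by
    exact_mod_cast Submodule.finrank_le (U i)
  exact mul_le_mul_of_nonneg_left this (abs_nonneg _)

theorem nd_abs' (ν : I → ℤ) (U : ∀ i, Submodule k (V i)) :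
    |nd ν (fun i => (⊤ : Submodule k (V i))) - nd ν U| ≤
      ∑ i, |ν i| * (Module.finrank k (V i) : ℤ) := by
  unfold nd
  rw [← Finset.sum_sub_distrib]
  refine (Finset.abs_sum_le_sum_abs _ _).trans (Finset.sum_le_sum fun i _ => ?_)
  rw [← mul_sub, abs_mul]
  have h1 : (Module.finrank k (U i) : ℤ) ≤ Module.finrank k (V i) := by
    exact_mod_cast Submodule.finrank_le (U i)
  have h2 : (Module.finrank k (⊤ : Submodule k (V i)) : ℤ) = Module.finrank k (V i) := by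
    rw [finrank_top]
  refine mul_le_mul_of_nonneg_left ?_ (abs_nonneg _)
  rw [h2, abs_of_nonneg (by omega)]
  omega

/-- the potential -/
noncomputable def Phi {z : Rp k s t c V} (ν : I → ℤ) (f : Fil z) (M : ℕ) : ℤ :=
  ∑ m ∈ range M, (nd ν (fun i => f.F i (-1 - m)) -
    (nd ν (fun i => (⊤ : Submodule k (V i))) - nd ν (fun i => f.F i m)))

theorem nd_bot (ν : I → ℤ) : nd ν (fun i => (⊥ : Submodule k (V i))) = 0 := by
  unfold nd
  simp

theorem Phi_stable {z : Rp k s t c V} (ν : I → ℤ) (f : Fil z) {M : ℕ} (hM : f.N ≤ M) :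
    Phi ν f M = Phi ν f f.N := by
  induction M, hM using Nat.le_induction with
  | base => rfl
  | succ M hM ih =>
    rw [← ih, Phi, Finset.sum_range_succ, ← Phi]
    have h1 : (fun i => f.F i (-1 - M)) = fun i => (⊥ : Submodule k (V i)) :=
      funext fun i => f.bot i _ (by omega)
    have h2 : (fun i => f.F i (M : ℤ)) = fun i => (⊤ : Submodule k (V i)) :=
      funext fun i => f.top i _ (by omega)
    rw [h1, h2, nd_bot]
    ring

/-- total dimension -/
noncomputable def fd {z : Rp k s t c V} (f : Fil z) (n : ℤ) : ℤ :=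
  ∑ i, (Module.finrank k (f.F i n) : ℤ)

theorem fd_mono {z : Rp k s t c V} (f : Fil z) {m n : ℤ} (h : m ≤ n) : fd f m ≤ fd f n :=
  Finset.sum_le_sum fun i _ => by exact_mod_cast Submodule.finrank_mono (f.mono i h)

theorem fd_eq {z : Rp k s t c V} (f : Fil z) {m n : ℤ} (h : m ≤ n) (heq : fd f m = fd f n)
    (i : I) : f.F i m = f.F i n := by
  have h1 := (Finset.sum_eq_sum_iff_of_le (s := Finset.univ)
    (f := fun i => (Module.finrank k (f.F i m) : ℤ)) (g := fun i => (Module.finrank k (f.F i n) : ℤ))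
    (fun i _ => by exact_mod_cast Submodule.finrank_mono (f.mono i h))).1 heq i (Finset.mem_univ i)
  exact Submodule.eq_of_le_of_finrank_eq (f.mono i h) (by exact_mod_cast h1)

theorem low_bound [CharZero k] {z : Rp k s t c V} (ν : I → ℤ)
    (hz : ∀ ξ, z.mu ξ = ∑ i, (ν i : k) * LinearMap.trace k _ (ξ i)) (f : Fil z) {n : ℤ}
    (hn : n ≤ -1) :
    -((∑ i, |ν i| * (Module.finrank k (V i) : ℤ)) * (fd f n - fd f (n - 1))) ≤
      nd ν (fun i => f.F i n) := by
  set C := ∑ i, |ν i| * (Module.finrank k (V i) : ℤ) with hC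
  have hC0 : 0 ≤ C := Finset.sum_nonneg fun i _ => by positivity
  rcases eq_or_lt_of_le (fd_mono f (show n - 1 ≤ n by omega)) with heq | hlt
  · have hF : ∀ i, f.F i (n - 1) = f.F i n := fd_eq f (by omega) heq
    have h0 : nd ν (fun i => f.F i n) = 0 := by
      refine nd_sub_ker z ν hz _ ⟨fun e u hu => ?_, fun e u hu => ?_⟩ fun l u hu => ?_
      · have hu' : u ∈ f.F (s e) (n - 1) := by rw [hF]; exact hu
        have := f.hx e _ u hu'
        rwa [sub_add_cancel] at this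
      · have hu' : u ∈ f.F (t e) (n - 1) := by rw [hF]; exact hu
        have := f.hy e _ u hu'
        rwa [sub_add_cancel] at this
      · have hu' : u ∈ f.F (c l) (n - 1) := by rw [hF]; exact hu
        exact f.hj l u (f.mono _ (by omega) hu')
    rw [h0, heq]
    simp
  · have h1 := neg_le_of_abs_le (nd_abs ν fun i => f.F i n)
    rw [← hC] at h1
    nlinarith

theorem high_bound [CharZero k] {z : Rp k s t c V} (ν : I → ℤ)
    (hz : ∀ ξ, z.mu ξ = ∑ i, (ν i : k) * LinearMap.trace k _ (ξ i)) (f : Fil z) {n : ℤ}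
    (hn : 0 ≤ n) :
    -((∑ i, |ν i| * (Module.finrank k (V i) : ℤ)) * (fd f (n + 1) - fd f n)) ≤
      -(nd ν (fun i => (⊤ : Submodule k (V i))) - nd ν (fun i => f.F i n)) := by
  set C := ∑ i, |ν i| * (Module.finrank k (V i) : ℤ) with hC
  have hC0 : 0 ≤ C := Finset.sum_nonneg fun i _ => by positivity
  rcases eq_or_lt_of_le (fd_mono f (show n ≤ n + 1 by omega)) with heq | hlt
  · have hF : ∀ i, f.F i n = f.F i (n + 1) := fd_eq f (by omega) heq
    have h0 : nd ν (fun i => f.F i n) = nd ν (fun i => (⊤ : Submodule k (V i))) := by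
      refine nd_sub_i z ν hz _ ⟨fun e u hu => ?_, fun e u hu => ?_⟩ fun l => ?_
      · show z.x e u ∈ f.F (t e) n
        rw [hF]
        exact f.hx e _ u hu
      · show z.y e u ∈ f.F (s e) n
        rw [hF]
        exact f.hy e _ u hu
      · rw [hF]
        exact f.mono _ (by omega) (f.hi l)
    rw [h0, heq]
    simp
  · have h1 := le_of_abs_le (nd_abs' ν fun i => f.F i n)
    rw [← hC] at h1
    nlinarith

theorem Phi_lower [CharZero k] {z : Rp k s t c V} (ν : I → ℤ)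
    (hz : ∀ ξ, z.mu ξ = ∑ i, (ν i : k) * LinearMap.trace k _ (ξ i)) (f : Fil z) :
    -((∑ i, |ν i| * (Module.finrank k (V i) : ℤ)) * ∑ i, (Module.finrank k (V i) : ℤ)) ≤
      Phi ν f f.N := by
  set C := ∑ i, |ν i| * (Module.finrank k (V i) : ℤ) with hC
  have hC0 : 0 ≤ C := Finset.sum_nonneg fun i _ => by positivity
  have h1 : ∑ m ∈ range f.N, -(C * (fd f (-1 - m) - fd f (-1 - (m + 1 : ℕ)))) ≤
      ∑ m ∈ range f.N, nd ν (fun i => f.F i (-1 - m)) := by
    refine Finset.sum_le_sum fun m _ => ?_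
    have := low_bound ν hz f (n := -1 - m) (by omega)
    rw [← hC] at this
    have e : (-1 - (m : ℤ) - 1) = -1 - (m + 1 : ℕ) := by push_cast; ring
    rwa [e] at this
  have h2 : ∑ m ∈ range f.N, -(C * (fd f ((m + 1 : ℕ) : ℤ) - fd f (m : ℕ))) ≤
      ∑ m ∈ range f.N, -(nd ν (fun i => (⊤ : Submodule k (V i))) - nd ν (fun i => f.F i m)) := by
    refine Finset.sum_le_sum fun m _ => ?_
    have := high_bound ν hz f (n := m) (by omega)
    rw [← hC] at this
    have e : ((m : ℤ) + 1) = (m + 1 : ℕ) := by push_cast; ring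
    rwa [e] at this
  have h3 : Phi ν f f.N = ∑ m ∈ range f.N, nd ν (fun i => f.F i (-1 - m)) +
      ∑ m ∈ range f.N, -(nd ν (fun i => (⊤ : Submodule k (V i))) - nd ν (fun i => f.F i m)) := by
    unfold Phi
    rw [← Finset.sum_add_distrib]
    refine Finset.sum_congr rfl fun m _ => ?_
    ring
  rw [Finset.sum_neg_distrib, ← Finset.mul_sum,
    Finset.sum_range_sub' (fun m : ℕ => fd f (-1 - (m : ℤ)))] at h1
  rw [Finset.sum_neg_distrib, ← Finset.mul_sum,
    Finset.sum_range_sub (fun m : ℕ => fd f (m : ℤ))] at h2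
  have h4 : fd f (-1 - (0 : ℕ)) ≤ fd f (0 : ℕ) := fd_mono f (by simp)
  have h5 : 0 ≤ fd f (-1 - (f.N : ℤ)) := Finset.sum_nonneg fun i _ => by positivity
  have h6 : fd f (f.N : ℤ) ≤ ∑ i, (Module.finrank k (V i) : ℤ) :=
    Finset.sum_le_sum fun i _ => by exact_mod_cast Submodule.finrank_le _
  rw [h3]
  nlinarith

/-- the trivial filtration -/
noncomputable def triv (z : Rp k s t c V) : Fil z where
  F i n := if n < 0 then ⊥ else ⊤
  N := 0
  mono i m n h := by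
    beta_reduce
    split_ifs with h1 h2
    · exact le_rfl
    · exact bot_le
    · omega
    · exact le_rfl
  bot i n h := by
    rw [if_pos (by simpa using h)]
  top i n h := by
    rw [if_neg (by simpa using h)]
  hx e n u hu := by
    by_cases h : n < 0
    · rw [if_pos h] at hu
      rw [(Submodule.mem_bot k).1 hu, map_zero]
      exact zero_mem _
    · rw [if_neg (by omega)]
      trivial
  hy e n u hu := by
    by_cases h : n < 0
    · rw [if_pos h] at hu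
      rw [(Submodule.mem_bot k).1 hu, map_zero]
      exact zero_mem _
    · rw [if_neg (by omega)]
      trivial
  hi l := by
    rw [if_neg (by omega)]
    trivial
  hj l u hu := by
    rw [if_pos (by omega)] at hu
    rw [(Submodule.mem_bot k).1 hu, map_zero]

section modi

variable {z : Rp k s t c V} {f : Fil z} (p : Spl f) {U : ∀ i, Submodule k (V i)}

/-- first modification -/
noncomputable def mod1 (hU : p.z1.Sub U) (hj : ∀ l, U (c l) ≤ LinearMap.ker (p.z1.j l)) :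
    Fil z where
  F i n := f.F i n ⊔ (U i ⊓ f.F i (n + 1))
  N := f.N + 1
  mono i m n h := sup_le_sup (f.mono i h) (inf_le_inf_left _ (f.mono i (by omega)))
  bot i n h := by
    push_cast at h
    rw [f.bot i n (by omega), f.bot i (n + 1) (by omega)]
    simp
  top i n h := by
    push_cast at h
    rw [f.top i n (by omega)]
    simp
  hx e n u hu := by
    obtain ⟨a, ha, b, hb, rfl⟩ := Submodule.mem_sup.1 hu
    rw [map_add]
    refine add_mem (Submodule.mem_sup_left (f.hx e n a ha)) ?_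
    have h1 := p.x_sub e (n + 1) hb.2
    have h2 : p.z1.x e b ∈ U (t e) ⊓ f.F (t e) (n + 1 + 1) := ⟨hU.1 e hb.1, p.x1_mem e _ hb.2⟩
    have h3 := add_mem (Submodule.mem_sup_left (T := U (t e) ⊓ f.F (t e) (n + 1 + 1)) h1)
      (Submodule.mem_sup_right h2)
    rwa [sub_add_cancel] at h3
  hy e n u hu := by
    obtain ⟨a, ha, b, hb, rfl⟩ := Submodule.mem_sup.1 hu
    rw [map_add]
    refine add_mem (Submodule.mem_sup_left (f.hy e n a ha)) ?_
    have h1 := p.y_sub e (n + 1) hb.2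
    have h2 : p.z1.y e b ∈ U (s e) ⊓ f.F (s e) (n + 1 + 1) := ⟨hU.2 e hb.1, p.y1_mem e _ hb.2⟩
    have h3 := add_mem (Submodule.mem_sup_left (T := U (s e) ⊓ f.F (s e) (n + 1 + 1)) h1)
      (Submodule.mem_sup_right h2)
    rwa [sub_add_cancel] at h3
  hi l := Submodule.mem_sup_left (f.hi l)
  hj l u hu := by
    obtain ⟨a, ha, b, hb, rfl⟩ := Submodule.mem_sup.1 hu
    have hb2 : b ∈ f.F (c l) (-1) := by
      have := hb.2
      norm_num at this
      exact this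
    rw [map_add, f.hj l a ha, p.j_eq l hb2, zero_add]
    exact hj l hb.1

/-- second modification -/
noncomputable def mod2 (hU : p.z1.Sub U) (hi : ∀ l, p.z1.i l ∈ U (c l)) : Fil z where
  F i n := f.F i (n - 1) ⊔ (U i ⊓ f.F i n)
  N := f.N + 1
  mono i m n h := sup_le_sup (f.mono i (by omega)) (inf_le_inf_left _ (f.mono i h))
  bot i n h := by
    push_cast at h
    rw [f.bot i n (by omega), f.bot i (n - 1) (by omega)]
    simp
  top i n h := by
    push_cast at h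
    rw [f.top i (n - 1) (by omega)]
    simp
  hx e n u hu := by
    obtain ⟨a, ha, b, hb, rfl⟩ := Submodule.mem_sup.1 hu
    rw [map_add]
    have h0 := f.hx e _ a ha
    rw [sub_add_cancel] at h0
    have h00 : z.x e a ∈ f.F (t e) (n + 1 - 1) := by rwa [add_sub_cancel_right]
    refine add_mem (Submodule.mem_sup_left h00) ?_
    have h1 := p.x_sub e n hb.2
    have h11 : z.x e b - p.z1.x e b ∈ f.F (t e) (n + 1 - 1) := by rwa [add_sub_cancel_right]
    have h2 : p.z1.x e b ∈ U (t e) ⊓ f.F (t e) (n + 1) := ⟨hU.1 e hb.1, p.x1_mem e _ hb.2⟩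
    have h3 := add_mem (Submodule.mem_sup_left (T := U (t e) ⊓ f.F (t e) (n + 1)) h11)
      (Submodule.mem_sup_right h2)
    rwa [sub_add_cancel] at h3
  hy e n u hu := by
    obtain ⟨a, ha, b, hb, rfl⟩ := Submodule.mem_sup.1 hu
    rw [map_add]
    have h0 := f.hy e _ a ha
    rw [sub_add_cancel] at h0
    have h00 : z.y e a ∈ f.F (s e) (n + 1 - 1) := by rwa [add_sub_cancel_right]
    refine add_mem (Submodule.mem_sup_left h00) ?_
    have h1 := p.y_sub e n hb.2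
    have h11 : z.y e b - p.z1.y e b ∈ f.F (s e) (n + 1 - 1) := by rwa [add_sub_cancel_right]
    have h2 : p.z1.y e b ∈ U (s e) ⊓ f.F (s e) (n + 1) := ⟨hU.2 e hb.1, p.y1_mem e _ hb.2⟩
    have h3 := add_mem (Submodule.mem_sup_left (T := U (s e) ⊓ f.F (s e) (n + 1)) h11)
      (Submodule.mem_sup_right h2)
    rwa [sub_add_cancel] at h3
  hi l := by
    have h1 := p.i_sub l
    have h11 : z.i l - p.z1.i l ∈ f.F (c l) (1 - 1) := by simpa using h1
    have h2 : p.z1.i l ∈ U (c l) ⊓ f.F (c l) 1 := ⟨hi l, p.mem _ _ _⟩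
    have h3 := add_mem (Submodule.mem_sup_left (T := U (c l) ⊓ f.F (c l) 1) h11)
      (Submodule.mem_sup_right h2)
    rwa [sub_add_cancel] at h3
  hj l u hu := by
    obtain ⟨a, ha, b, hb, rfl⟩ := Submodule.mem_sup.1 hu
    rw [map_add, f.hj l a (f.mono _ (by omega) ha), f.hj l b hb.2, zero_add]

theorem nd_mod (ν : I → ℤ) (n : ℤ) :
    nd ν (fun i => f.F i (n - 1) ⊔ (U i ⊓ f.F i n)) = nd ν (fun i => f.F i (n - 1)) +
      nd ν (fun i => U i ⊓ f.F i n) - nd ν (fun i => U i ⊓ f.F i (n - 1)) := by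
  unfold nd
  rw [← Finset.sum_add_distrib, ← Finset.sum_sub_distrib]
  refine Finset.sum_congr rfl fun i _ => ?_
  have h := Submodule.finrank_sup_add_finrank_inf_eq (f.F i (n - 1)) (U i ⊓ f.F i n)
  have h1 : f.F i (n - 1) ⊓ (U i ⊓ f.F i n) = U i ⊓ f.F i (n - 1) := by
    rw [inf_left_comm, inf_eq_left.2 (f.mono i (show n - 1 ≤ n by omega))]
  rw [h1] at h
  have h2 : (Module.finrank k ↥(f.F i (n - 1) ⊔ (U i ⊓ f.F i n)) : ℤ) =
      Module.finrank k (f.F i (n - 1)) + Module.finrank k ↥(U i ⊓ f.F i n) -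
        Module.finrank k ↥(U i ⊓ f.F i (n - 1)) := by
    have h3 : (Module.finrank k ↥(f.F i (n - 1) ⊔ (U i ⊓ f.F i n)) : ℤ) +
        Module.finrank k ↥(U i ⊓ f.F i (n - 1)) = Module.finrank k (f.F i (n - 1)) +
        Module.finrank k ↥(U i ⊓ f.F i n) := by exact_mod_cast h
    linarith
  rw [h2]
  ring

theorem Phi_mod1 (ν : I → ℤ) (hU : p.z1.Sub U) (hj : ∀ l, U (c l) ≤ LinearMap.ker (p.z1.j l)) :
    Phi ν (mod1 p hU hj) (mod1 p hU hj).N = Phi ν f f.N + nd ν U := by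
  have hN : (mod1 p hU hj).N = f.N + 1 := rfl
  rw [hN, ← Phi_stable ν f (show f.N ≤ f.N + 1 by omega)]
  set M := f.N + 1 with hM
  set g : ℤ → ℤ := fun n => nd ν (fun i => U i ⊓ f.F i n) with hg
  have h1 : ∀ n, nd ν (fun i => (mod1 p hU hj).F i n) = nd ν (fun i => f.F i n) + g (n + 1) - g n := by
    intro n
    have := nd_mod (f := f) (U := U) ν (n + 1)
    rw [add_sub_cancel_right] at this
    exact this
  have h2 : Phi ν (mod1 p hU hj) M - Phi ν f M =
      ∑ m ∈ range M, (g (-(m : ℤ)) - g (-((m + 1 : ℕ) : ℤ))) +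
      ∑ m ∈ range M, (g ((m + 1 : ℕ) : ℤ) - g (m : ℤ)) := by
    unfold Phi
    rw [← Finset.sum_sub_distrib, ← Finset.sum_add_distrib]
    refine Finset.sum_congr rfl fun m _ => ?_
    rw [h1, h1]
    have e1 : (-1 - (m : ℤ) + 1) = -(m : ℤ) := by ring
    have e2 : (-1 - (m : ℤ)) = -((m + 1 : ℕ) : ℤ) := by push_cast; ring
    have e3 : (m : ℤ) + 1 = ((m + 1 : ℕ) : ℤ) := by push_cast; ring
    rw [e1, e2, e3]
    ring
  rw [Finset.sum_range_sub' (fun m : ℕ => g (-(m : ℤ))),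
    Finset.sum_range_sub (fun m : ℕ => g (m : ℤ))] at h2
  have h3 : g (-(M : ℤ)) = 0 := by
    rw [hg]
    have : (fun i => U i ⊓ f.F i (-(M : ℤ))) = fun i => (⊥ : Submodule k (V i)) := by
      funext i
      rw [f.bot i _ (by omega), inf_bot_eq]
    simp only [this]
    exact nd_bot ν
  have h4 : g (M : ℤ) = nd ν U := by
    rw [hg]
    have : (fun i => U i ⊓ f.F i (M : ℤ)) = U := by
      funext i
      rw [f.top i _ (by omega), inf_top_eq]
    simp only [this]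
  rw [h3, h4] at h2
  simp only [Nat.cast_zero, neg_zero] at h2
  linarith

theorem Phi_mod2 (ν : I → ℤ) (hU : p.z1.Sub U) (hi : ∀ l, p.z1.i l ∈ U (c l)) :
    Phi ν (mod2 p hU hi) (mod2 p hU hi).N =
      Phi ν f f.N - (nd ν (fun i => (⊤ : Submodule k (V i))) - nd ν U) := by
  have hN : (mod2 p hU hi).N = f.N + 1 := rfl
  rw [hN, ← Phi_stable ν f (show f.N ≤ f.N + 1 by omega)]
  set M := f.N + 1 with hM
  set q : ℤ → ℤ := fun n => nd ν (fun i => f.F i n) - nd ν (fun i => U i ⊓ f.F i n) with hq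
  have h1 : ∀ n, nd ν (fun i => (mod2 p hU hi).F i n) =
      nd ν (fun i => f.F i n) - (q n - q (n - 1)) := by
    intro n
    have := nd_mod (f := f) (U := U) ν n
    have h : nd ν (fun i => (mod2 p hU hi).F i n) =
      nd ν (fun i => f.F i (n - 1) ⊔ (U i ⊓ f.F i n)) := rfl
    rw [h, this, hq]
    ring
  have h2 : Phi ν (mod2 p hU hi) M - Phi ν f M =
      -∑ m ∈ range M, (q (-1 - (m : ℤ)) - q (-1 - ((m + 1 : ℕ) : ℤ))) -
      ∑ m ∈ range M, (q (((m + 1 : ℕ) : ℤ) - 1) - q ((m : ℤ) - 1)) := by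
    unfold Phi
    rw [← Finset.sum_sub_distrib, ← Finset.sum_neg_distrib, ← Finset.sum_sub_distrib]
    refine Finset.sum_congr rfl fun m _ => ?_
    rw [h1, h1]
    have e1 : (-1 - (m : ℤ) - 1) = -1 - ((m + 1 : ℕ) : ℤ) := by push_cast; ring
    have e3 : ((m + 1 : ℕ) : ℤ) - 1 = m := by push_cast; ring
    rw [e1, e3]
    ring
  rw [Finset.sum_range_sub' (fun m : ℕ => q (-1 - (m : ℤ))),
    Finset.sum_range_sub (fun m : ℕ => q ((m : ℤ) - 1))] at h2
  have h3 : q (-1 - (M : ℤ)) = 0 := by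
    have e1 : (fun i => f.F i (-1 - (M : ℤ))) = fun i => (⊥ : Submodule k (V i)) :=
      funext fun i => f.bot i _ (by omega)
    have e2 : (fun i => U i ⊓ f.F i (-1 - (M : ℤ))) = fun i => (⊥ : Submodule k (V i)) := by
      funext i
      rw [f.bot i _ (by omega), inf_bot_eq]
    simp only [hq, e1, e2, sub_self]
  have h4 : q ((M : ℤ) - 1) = nd ν (fun i => (⊤ : Submodule k (V i))) - nd ν U := by
    have e1 : (fun i => f.F i ((M : ℤ) - 1)) = fun i => (⊤ : Submodule k (V i)) :=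
      funext fun i => f.top i _ (by omega)
    have e2 : (fun i => U i ⊓ f.F i ((M : ℤ) - 1)) = U := by
      funext i
      rw [f.top i _ (by omega), inf_top_eq]
    simp only [hq, e1, e2]
  rw [h3, h4] at h2
  simp only [Nat.cast_zero, sub_zero, zero_sub] at h2
  linarith

end modi

end dims

end LOne

open LOne in
/-- **L1.** If the fibre of the moment map over `ν` is nonempty then so is the `ν`-semistable
locus of the zero fibre. -/
theorem exists_ss {k : Type} [Field k] [CharZero k] {I E L : Type} [Fintype I] [Fintype E]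
    [Fintype L] {s t : E → I} {c : L → I} {V : I → Type} [∀ i, AddCommGroup (V i)]
    [∀ i, Module k (V i)] [∀ i, FiniteDimensional k (V i)] (z : Rp k s t c V) (ν : I → ℤ)
    (hz : ∀ ξ, z.mu ξ = ∑ i, (ν i : k) * LinearMap.trace k _ (ξ i)) :
    ∃ z' : Rp k s t c V, (∀ ξ, z'.mu ξ = 0) ∧ z'.SS ν := by
  obtain ⟨lb, ⟨f, hf⟩, hlb⟩ := Int.exists_least_of_bdd
    (P := fun x : ℤ => ∃ f : Fil z, Phi ν f f.N = x)
    ⟨_, fun x ⟨f, hf⟩ => hf ▸ Phi_lower ν hz f⟩ ⟨_, triv z, rfl⟩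
  obtain ⟨p⟩ := exists_spl f
  refine ⟨p.z1, mu_z1 p ν hz, fun U hU => ⟨fun hj => ?_, fun hi => ?_⟩⟩
  · have h1 := hlb _ ⟨mod1 p hU hj, rfl⟩
    rw [Phi_mod1, hf] at h1
    have h2 : nd ν U = ∑ i, ν i * (Module.finrank k (U i) : ℤ) := rfl
    rw [← h2]
    linarith
  · have h1 := hlb _ ⟨mod2 p hU hi, rfl⟩
    rw [Phi_mod2, hf] at h1
    have h2 : nd ν (fun i => (⊤ : Submodule k (V i))) - nd ν U =
        ∑ i, ν i * ((Module.finrank k (V i) : ℤ) - Module.finrank k (U i)) := by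
      unfold nd
      rw [← Finset.sum_sub_distrib]
      refine Finset.sum_congr rfl fun i _ => ?_
      rw [finrank_top]
      ring
    rw [← h2]
    linarith

end Vale.Agent.P291.Link
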