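import Vale.Agent.P291.Link.L3bBlk

/-!
# P291, block LINK: from coordinates to representations
-/

open MvPolynomial

namespace Vale.Agent.P291.Link

section

variable {I E L B : Type} [Fintype B] [DecidableEq B] [DecidableEq I] [Fintype E] [Fintype L]

/-- representation with given coordinates -/
noncomputable def ofC (s t : E → I) (c : L → I) (vx : B → I) (xa ya : E → B → B → ℂ)
    (ja ia : L → B → ℂ) : Rp ℂ s t c (fun i => {b : B // vx b = i} → ℂ) where
  x e := Matrix.toLin' (Matrix.of fun b' b => xa e b b')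
  y e := Matrix.toLin' (Matrix.of fun b b' => ya e b b')
  j l := ∑ b : {b : B // vx b = c l}, (ja l b) • (LinearMap.proj b :
    ({b : B // vx b = c l} → ℂ) →ₗ[ℂ] ℂ)
  i l := fun b => ia l b

omit [DecidableEq B] in
theorem sum_sub (vx : B → I) (i : I) (f : {b : B // vx b = i} → ℂ) (g : B → ℂ)
    (h : ∀ b (hb : vx b = i), g b = f ⟨b, hb⟩) :
    ∑ b : {b : B // vx b = i}, f b = ∑ b : B, if vx b = i then g b else 0 := by
  rw [← Finset.sum_filter, Finset.sum_subtype (Finset.univ.filter (fun b => vx b = i))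
    (p := fun b => vx b = i) (by simp) g]
  exact Finset.sum_congr rfl fun b _ => (h b.1 b.2).symm

/-- the matrix of `ξ` on all boxes -/
noncomputable def GM (vx : B → I) (ξ : ∀ i, ({b : B // vx b = i} → ℂ) →ₗ[ℂ] ({b : B // vx b = i} → ℂ))
    (b' b : B) : ℂ :=
  if h : vx b' = vx b then LinearMap.toMatrix' (ξ (vx b)) ⟨b', h⟩ ⟨b, rfl⟩ else 0

theorem sum_GM (vx : B → I) (ξ : ∀ i, ({b : B // vx b = i} → ℂ) →ₗ[ℂ] ({b : B // vx b = i} → ℂ))
    (i : I) (f : B → B → ℂ) :
    ∑ b : {b : B // vx b = i}, ∑ b' : {b : B // vx b = i},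
      LinearMap.toMatrix' (ξ i) b' b * f b b' =
    ∑ b : B, ∑ b' : B, if vx b = i then GM vx ξ b' b * f b b' else 0 := by
  rw [sum_sub vx i _ (fun b => ∑ b', GM vx ξ b' b * f b b')]
  · refine Finset.sum_congr rfl fun b _ => ?_
    split_ifs <;> simp
  · rintro b rfl
    rw [sum_sub vx (vx b) _ (fun b' => GM vx ξ b' b * f b b')]
    · refine Finset.sum_congr rfl fun b' _ => ?_
      split_ifs with h
      · rfl
      · rw [GM, dif_neg h, zero_mul]
    · intro b' hb'
      rw [GM, dif_pos hb']

theorem mu_ofC (s t : E → I) (c : L → I) (vx : B → I) (xa ya : E → B → B → ℂ)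
    (ja ia : L → B → ℂ)
    (ξ : ∀ i, ({b : B // vx b = i} → ℂ) →ₗ[ℂ] ({b : B // vx b = i} → ℂ)) :
    (ofC s t c vx xa ya ja ia).mu ξ = ∑ b, ∑ b', GM vx ξ b' b *
      ((∑ e, if vx b = t e then ∑ r, if vx r = s e then xa e r b * ya e r b' else 0 else 0) -
        (∑ e, if vx b = s e then ∑ r, if vx r = t e then ya e b r * xa e b' r else 0 else 0) -
        ∑ l, if vx b = c l then ia l b * ja l b' else 0) := by
  have h1 : ∀ e, LinearMap.trace ℂ _ ((ofC s t c vx xa ya ja ia).y e ∘ₗ
      (ξ (t e) ∘ₗ (ofC s t c vx xa ya ja ia).x e - (ofC s t c vx xa ya ja ia).x e ∘ₗ ξ (s e))) =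
      (∑ b, ∑ b', if vx b = t e then GM vx ξ b' b *
        (∑ r, if vx r = s e then xa e r b * ya e r b' else 0) else 0) -
      (∑ b, ∑ b', if vx b = s e then GM vx ξ b' b *
        (∑ r, if vx r = t e then ya e b r * xa e b' r else 0) else 0) := by
    intro e
    rw [← sum_GM vx ξ (t e) (fun b b' => ∑ r, if vx r = s e then xa e r b * ya e r b' else 0),
      ← sum_GM vx ξ (s e) (fun b b' => ∑ r, if vx r = t e then ya e b r * xa e b' r else 0)]
    rw [LinearMap.comp_sub, map_sub]
    congr 1
    · have h2 : (ofC s t c vx xa ya ja ia).y e ∘ₗ (ξ (t e) ∘ₗ (ofC s t c vx xa ya ja ia).x e) =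
          Matrix.toLin' ((Matrix.of fun (b : {b : B // vx b = s e}) (b' : {b : B // vx b = t e}) =>
            ya e b b') * (LinearMap.toMatrix' (ξ (t e)) *
            (Matrix.of fun (b' : {b : B // vx b = t e}) (b : {b : B // vx b = s e}) =>
              xa e b b'))) := by
        rw [Matrix.toLin'_mul, Matrix.toLin'_mul, Matrix.toLin'_toMatrix']
        rfl
      rw [h2, Matrix.trace_toLin'_eq, Matrix.trace]
      simp only [Matrix.diag_apply, Matrix.mul_apply, Matrix.of_apply, Finset.mul_sum]
      have h3 : ∀ (b b' : {b : B // vx b = t e}),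
          LinearMap.toMatrix' (ξ (t e)) b' b *
            (∑ r, if vx r = s e then xa e r b * ya e r b' else 0) =
          ∑ r : {b : B // vx b = s e}, ya e r b' * (LinearMap.toMatrix' (ξ (t e)) b' b *
            xa e r b) := by
        intro b b'
        rw [← sum_sub vx (s e) (fun r => xa e r b * ya e r b') (fun r => xa e r b * ya e r b')
          (fun _ _ => rfl), Finset.mul_sum]
        exact Finset.sum_congr rfl fun r _ => by ring
      simp only [← Finset.mul_sum]
      rw [Finset.sum_congr rfl fun b _ => Finset.sum_congr rfl fun b' _ => h3 b b']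
      simp only [Finset.mul_sum]
      rw [Finset.sum_comm]
      rw [Finset.sum_congr rfl fun b' _ => Finset.sum_comm]
      rw [Finset.sum_comm]
    · have h2 : (ofC s t c vx xa ya ja ia).y e ∘ₗ ((ofC s t c vx xa ya ja ia).x e ∘ₗ ξ (s e)) =
          Matrix.toLin' ((Matrix.of fun (b : {b : B // vx b = s e}) (b' : {b : B // vx b = t e}) =>
            ya e b b') *
            ((Matrix.of fun (b' : {b : B // vx b = t e}) (b : {b : B // vx b = s e}) =>
              xa e b b') * LinearMap.toMatrix' (ξ (s e)))) := by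
        rw [Matrix.toLin'_mul, Matrix.toLin'_mul, Matrix.toLin'_toMatrix']
        rfl
      rw [h2, Matrix.trace_toLin'_eq, Matrix.trace]
      simp only [Matrix.diag_apply, Matrix.mul_apply, Matrix.of_apply]
      have h3 : ∀ (b b' : {b : B // vx b = s e}),
          LinearMap.toMatrix' (ξ (s e)) b' b *
            (∑ r, if vx r = t e then ya e b r * xa e b' r else 0) =
          ∑ r : {b : B // vx b = t e}, ya e b r * (xa e b' r *
            LinearMap.toMatrix' (ξ (s e)) b' b) := by
        intro b b'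
        rw [← sum_sub vx (t e) (fun r => ya e b r * xa e b' r) (fun r => ya e b r * xa e b' r)
          (fun _ _ => rfl), Finset.mul_sum]
        exact Finset.sum_congr rfl fun r _ => by ring
      rw [Finset.sum_congr rfl fun b _ => Finset.sum_congr rfl fun b' _ => h3 b b']
      simp only [Finset.mul_sum]
      exact Finset.sum_congr rfl fun b _ => Finset.sum_comm
  have h4 : ∀ l, (ofC s t c vx xa ya ja ia).j l (ξ (c l) ((ofC s t c vx xa ya ja ia).i l)) =
      ∑ b, ∑ b', if vx b = c l then GM vx ξ b' b * (ia l b * ja l b') else 0 := by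
    intro l
    rw [← sum_GM vx ξ (c l) (fun b b' => ia l b * ja l b')]
    have h5 : ξ (c l) ((ofC s t c vx xa ya ja ia).i l) =
        (LinearMap.toMatrix' (ξ (c l))).mulVec (fun b => ia l b) := by
      rw [← Matrix.toLin'_apply, Matrix.toLin'_toMatrix']
      rfl
    rw [h5]
    simp only [ofC, LinearMap.sum_apply, LinearMap.smul_apply, LinearMap.proj_apply,
      Matrix.mulVec, dotProduct, smul_eq_mul, Finset.mul_sum]
    rw [Finset.sum_comm]
    exact Finset.sum_congr rfl fun b _ => Finset.sum_congr rfl fun b' _ => by ring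
  rw [Rp.mu, Finset.sum_congr rfl fun e _ => h1 e, Finset.sum_congr rfl fun l _ => h4 l,
    Finset.sum_sub_distrib]
  rw [Finset.sum_comm (s := (Finset.univ : Finset E)) (t := (Finset.univ : Finset B)),
    Finset.sum_comm (s := (Finset.univ : Finset E)) (t := (Finset.univ : Finset B)),
    Finset.sum_comm (s := (Finset.univ : Finset L)) (t := (Finset.univ : Finset B)),
    ← Finset.sum_sub_distrib, ← Finset.sum_sub_distrib]
  refine Finset.sum_congr rfl fun b _ => ?_
  rw [Finset.sum_comm (s := (Finset.univ : Finset E)) (t := (Finset.univ : Finset B)),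
    Finset.sum_comm (s := (Finset.univ : Finset E)) (t := (Finset.univ : Finset B)),
    Finset.sum_comm (s := (Finset.univ : Finset L)) (t := (Finset.univ : Finset B)),
    ← Finset.sum_sub_distrib, ← Finset.sum_sub_distrib]
  refine Finset.sum_congr rfl fun b' _ => ?_
  rw [mul_sub, mul_sub, Finset.mul_sum, Finset.mul_sum, Finset.mul_sum]
  simp only [mul_ite, mul_zero]

theorem muE_eq {F Λ' : Type} [Fintype F] [CommRing Λ'] (Q' : QD I F B Λ') (s t : E → I)
    (c : L → I) (ε : E ⊕ L ≃ F) (hs : ∀ e, Q'.src (ε (Sum.inl e)) = s e)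
    (ht : ∀ e, Q'.tgt (ε (Sum.inl e)) = some (t e)) (hc : ∀ l, Q'.src (ε (Sum.inr l)) = c l)
    (hn : ∀ l, Q'.tgt (ε (Sum.inr l)) = none) (x y : F × B × Option B → ℂ) (b b' : B) :
    muE Q' x y b b' =
      (∑ e, if Q'.vx b = t e then ∑ r, if Q'.vx r = s e then
          x (ε (Sum.inl e), r, some b) * y (ε (Sum.inl e), r, some b') else 0 else 0) -
        (∑ e, if Q'.vx b = s e then ∑ r, if Q'.vx r = t e then
          y (ε (Sum.inl e), b, some r) * x (ε (Sum.inl e), b', some r) else 0 else 0) -
        ∑ l, if Q'.vx b = c l then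
          y (ε (Sum.inr l), b, none) * x (ε (Sum.inr l), b', none) else 0 := by
  rw [muE, sub_sub]
  have hW : ∀ p, p ∈ Q'.Wt ↔ (Q'.vx p.2.1 = Q'.src p.1 ∧ Q'.vo p.2.2 = Q'.tgt p.1) := by
    intro p
    simp [QD.Wt]
  congr 1
  · rw [Finset.sum_filter, QD.Wt, Finset.sum_filter, Fintype.sum_prod_type,
      ← Equiv.sum_comp ε, Fintype.sum_sum_type]
    have h0 : ∑ l : L, ∑ q : B × Option B, (if Q'.vx (ε (Sum.inr l), q).2.1 =
        Q'.src (ε (Sum.inr l), q).1 ∧ Q'.vo (ε (Sum.inr l), q).2.2 = Q'.tgt (ε (Sum.inr l), q).1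
        then (if (ε (Sum.inr l), q).2.2 = some b then x (ε (Sum.inr l), q) *
          y ((ε (Sum.inr l), q).1, (ε (Sum.inr l), q).2.1, some b') else 0) else 0) = 0 := by
      refine Finset.sum_eq_zero fun l _ => Finset.sum_eq_zero fun q _ => ?_
      split_ifs with h1 h2
      · exfalso
        have h3 := h1.2
        simp only at h2 h3
        rw [hn, h2] at h3
        simp [QD.vo] at h3
      · rfl
      · rfl
    rw [h0, add_zero]
    refine Finset.sum_congr rfl fun e _ => ?_
    rw [Fintype.sum_prod_type]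
    simp only [hs, ht, Fintype.sum_option]
    have h4 : ∀ r : B, (if Q'.vx r = s e ∧ Q'.vo (none : Option B) = some (t e) then
        (if (none : Option B) = some b then x (ε (Sum.inl e), r, none) *
          y (ε (Sum.inl e), r, some b') else 0) else 0) = 0 := by
      intro r
      simp
    simp only [h4, zero_add]
    have h5 : ∀ r : B, ∑ o : B, (if Q'.vx r = s e ∧ Q'.vo (some o) = some (t e) then
        (if (some o : Option B) = some b then x (ε (Sum.inl e), r, some o) *
          y (ε (Sum.inl e), r, some b') else 0) else 0) =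
        if Q'.vx b = t e then (if Q'.vx r = s e then x (ε (Sum.inl e), r, some b) *
          y (ε (Sum.inl e), r, some b') else 0) else 0 := by
      intro r
      rw [Finset.sum_eq_single b]
      · simp only [QD.vo, Option.map_some, Option.some.injEq, if_true]
        by_cases h6 : Q'.vx b = t e <;> by_cases h7 : Q'.vx r = s e <;> simp [h6, h7]
      · intro o _ ho
        simp [ho]
      · simp
    rw [Finset.sum_congr rfl fun r _ => h5 r]
    split_ifs
    · rfl
    · simp
  · rw [Finset.sum_filter, QD.Wt, Finset.sum_filter, Fintype.sum_prod_type,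
      ← Equiv.sum_comp ε, Fintype.sum_sum_type]
    have h5 : ∀ a : F, ∑ q : B × Option B, (if Q'.vx (a, q).2.1 = Q'.src (a, q).1 ∧
        Q'.vo (a, q).2.2 = Q'.tgt (a, q).1 then (if (a, q).2.1 = b then
          y (a, q) * x ((a, q).1, b', (a, q).2.2) else 0) else 0) =
        ∑ o : Option B, if Q'.vx b = Q'.src a ∧ Q'.vo o = Q'.tgt a then
          y (a, b, o) * x (a, b', o) else 0 := by
      intro a
      rw [Fintype.sum_prod_type, Finset.sum_eq_single b]
      · simp
      · intro r _ hr
        simp [hr]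
      · simp
    rw [Finset.sum_congr rfl fun e _ => h5 (ε (Sum.inl e)),
      Finset.sum_congr rfl fun l _ => h5 (ε (Sum.inr l))]
    congr 1
    · refine Finset.sum_congr rfl fun e _ => ?_
      rw [Fintype.sum_option]
      simp only [hs, ht, QD.vo, Option.map_none, Option.map_some, Option.some.injEq,
        reduceCtorEq, and_false, if_false, zero_add]
      by_cases h6 : Q'.vx b = s e
      · simp [h6]
      · simp [h6]
    · refine Finset.sum_congr rfl fun l _ => ?_
      rw [Fintype.sum_option]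
      simp only [hc, hn, QD.vo, Option.map_none, Option.map_some, reduceCtorEq, and_false,
        if_false, and_true, Finset.sum_const_zero, add_zero]

/-- A point of `μ^{-1}(ν)` in coordinates gives a representation. -/
theorem exists_rp [Fintype I] {F Λ' : Type} [Fintype F] [CommRing Λ'] (Q' : QD I F B Λ')
    (s t : E → I)
    (c : L → I) (ε : E ⊕ L ≃ F) (hs : ∀ e, Q'.src (ε (Sum.inl e)) = s e)
    (ht : ∀ e, Q'.tgt (ε (Sum.inl e)) = some (t e)) (hc : ∀ l, Q'.src (ε (Sum.inr l)) = c l)
    (hn : ∀ l, Q'.tgt (ε (Sum.inr l)) = none) (ν : I → ℤ) (x y : F × B × Option B → ℂ)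
    (h : ∀ b b' : B, Q'.vx b = Q'.vx b' →
      muE Q' x y b b' = if b = b' then (ν (Q'.vx b) : ℂ) else 0) :
    ∃ z : Rp ℂ s t c (fun i => {b : B // Q'.vx b = i} → ℂ), ∀ ξ,
      z.mu ξ = ∑ i, (ν i : ℂ) * LinearMap.trace ℂ _ (ξ i) := by
  refine ⟨ofC s t c Q'.vx (fun e r b => x (ε (Sum.inl e), r, some b))
    (fun e r b => y (ε (Sum.inl e), r, some b)) (fun l b => x (ε (Sum.inr l), b, none))
    (fun l b => y (ε (Sum.inr l), b, none)), fun ξ => ?_⟩
  rw [mu_ofC]
  have h1 : ∀ b b', GM Q'.vx ξ b' b *
      ((∑ e, if Q'.vx b = t e then ∑ r, if Q'.vx r = s e then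
          x (ε (Sum.inl e), r, some b) * y (ε (Sum.inl e), r, some b') else 0 else 0) -
        (∑ e, if Q'.vx b = s e then ∑ r, if Q'.vx r = t e then
          y (ε (Sum.inl e), b, some r) * x (ε (Sum.inl e), b', some r) else 0 else 0) -
        ∑ l, if Q'.vx b = c l then
          y (ε (Sum.inr l), b, none) * x (ε (Sum.inr l), b', none) else 0) =
      if b = b' then GM Q'.vx ξ b b * ν (Q'.vx b) else 0 := by
    intro b b'
    rw [← muE_eq Q' s t c ε hs ht hc hn x y b b']
    by_cases hbb : Q'.vx b' = Q'.vx b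
    · rw [h b b' hbb.symm]
      split_ifs with h2
      · subst h2
        rfl
      · simp
    · rw [GM, dif_neg hbb, zero_mul, if_neg]
      rintro rfl
      exact hbb rfl
  rw [Finset.sum_congr rfl fun b _ => Finset.sum_congr rfl fun b' _ => h1 b b']
  simp only [Finset.sum_ite_eq, Finset.mem_univ, if_true]
  have h2 : ∀ i, (ν i : ℂ) * LinearMap.trace ℂ _ (ξ i) =
      ∑ b : B, if Q'.vx b = i then GM Q'.vx ξ b b * ν (Q'.vx b) else 0 := by
    intro i
    rw [← sum_sub Q'.vx i (fun b => LinearMap.toMatrix' (ξ i) b b * ν i)]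
    · rw [← Finset.sum_mul, mul_comm]
      congr 1
      conv_lhs => rw [← Matrix.toLin'_toMatrix' (ξ i)]
      rw [Matrix.trace_toLin'_eq]
      rfl
    · rintro b rfl
      rw [GM, dif_pos rfl]
  rw [Finset.sum_congr rfl fun i _ => h2 i, Finset.sum_comm]
  refine Finset.sum_congr rfl fun b _ => ?_
  simp

end

end Vale.Agent.P291.Link
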