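import Vale.Agent.P291.Link.L4a
import Vale.Agent.P291.Link.L4b
import Vale.Agent.P291.Link.L1Blk

/-!
# P291, block LINK: geometric regularity of `ν` implies the condition `Reg`
-/

set_option linter.unusedSectionVars false

open MvPolynomial

namespace Vale.Agent.P291.Link

section

variable {I E L : Type} [Fintype I] [Fintype E] [Fintype L]

/-- there is a semistable point of `μ^{-1}(0)` of the given dimension -/
def Ex (s t : E → I) (c : L → I) (ν : I → ℤ) (n : I → ℕ) : Prop :=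
  ∃ z : Rp ℂ s t c (fun i => Fin (n i) → ℂ), (∀ ξ, z.mu ξ = 0) ∧ z.SS ν

/-- unframed version -/
def ExU (s t : E → I) (ν : I → ℤ) (n : I → ℕ) : Prop :=
  ∃ z : Rp ℂ s t (fun l : Empty => l.elim) (fun i => Fin (n i) → ℂ), (∀ ξ, z.mu ξ = 0) ∧ z.SS ν

theorem transport {s t : E → I} {c : L → I} {ν : I → ℤ} {V V' : I → Type}
    [∀ i, AddCommGroup (V i)] [∀ i, Module ℂ (V i)] [∀ i, FiniteDimensional ℂ (V i)]
    [∀ i, AddCommGroup (V' i)] [∀ i, Module ℂ (V' i)] [∀ i, FiniteDimensional ℂ (V' i)]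
    (h : ∀ i, Module.finrank ℂ (V i) = Module.finrank ℂ (V' i)) (z : Rp ℂ s t c V)
    (hz : ∀ ξ, z.mu ξ = 0) (hs : z.SS ν) :
    ∃ φ : ∀ i, V i ≃ₗ[ℂ] V' i, (∀ ξ, (z.map φ).mu ξ = 0) ∧ (z.map φ).SS ν := by
  refine ⟨fun i => LinearEquiv.ofFinrankEq _ _ (h i), fun ξ => ?_, z.SS_map _ hs⟩
  rw [z.mu_map, hz]

theorem ex_of {s t : E → I} {c : L → I} {ν : I → ℤ} {V : I → Type}
    [∀ i, AddCommGroup (V i)] [∀ i, Module ℂ (V i)] [∀ i, FiniteDimensional ℂ (V i)]
    (n : I → ℕ) (h : ∀ i, Module.finrank ℂ (V i) = n i) (z : Rp ℂ s t c V)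
    (hz : ∀ ξ, z.mu ξ = 0) (hs : z.SS ν) :
    ∃ z' : Rp ℂ s t c (fun i => Fin (n i) → ℂ), (∀ ξ, z'.mu ξ = 0) ∧ z'.SS ν := by
  obtain ⟨φ, h1, h2⟩ := transport (V' := fun i => Fin (n i) → ℂ) (by simpa using h) z hz hs
  exact ⟨_, h1, h2⟩

variable {B Λ : Type} [DecidableEq I] [Fintype B] [DecidableEq B] [CommRing Λ]
  [IsDomain Λ] [Algebra ℚ Λ]

/-- A block with nonempty `μ^{-1}(ν)` has a `ν`-semistable point in `μ^{-1}(0)`. -/
theorem exists_block {F Λ' : Type} [Fintype F] [CommRing Λ'] [IsDomain Λ'] [Algebra ℚ Λ']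
    (Q' : QD I F B Λ') (s t : E → I)
    (c : L → I) (ε : E ⊕ L ≃ F) (hs : ∀ e, Q'.src (ε (Sum.inl e)) = s e)
    (ht : ∀ e, Q'.tgt (ε (Sum.inl e)) = some (t e)) (hc : ∀ l, Q'.src (ε (Sum.inr l)) = c l)
    (hn : ∀ l, Q'.tgt (ε (Sum.inr l)) = none) (ν : I → ℤ)
    (hD : Q'.D ∉ Ideal.span {f | ∃ U : Finset B, ∑ b ∈ U, ν (Q'.vx b) ≠ 0 ∧ f = Q'.cut U}) :
    ∃ z : Rp ℂ s t c (fun i => Fin (Fintype.card {b : B // Q'.vx b = i}) → ℂ),
      (∀ ξ, z.mu ξ = 0) ∧ z.SS ν := by
  have h1 := mt (D_mem_cut Q' (fun b => ν (Q'.vx b))) hD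
  rw [not_not] at h1
  obtain ⟨x, y, hxy⟩ := h1
  obtain ⟨z, hz⟩ := exists_rp Q' s t c ε hs ht hc hn ν x y hxy
  obtain ⟨z', h2, h3⟩ := exists_ss z ν hz
  exact ex_of _ (by simp) z' h2 h3

theorem one_mem_JH {F : Type} [Fintype F] (Q : QD I F B Λ) (ν : I → ℤ)
    (h : Q.gen.D ∈ Ideal.span {f | ∃ U : Finset B, ∑ b ∈ U, ν (Q.gen.vx b) ≠ 0 ∧
      f = Q.gen.cut U}) : (1 : SS B Λ) ∈ Q.JH := by
  refine ⟨1, ⟨Subalgebra.one_mem _, ?_⟩, map_one _⟩
  rw [mul_one]
  refine Ideal.span_mono ?_ h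
  rintro f ⟨U, hU, rfl⟩
  refine ⟨U, ?_, rfl⟩
  rw [Finset.nonempty_iff_ne_empty]
  rintro rfl
  simp at hU

theorem one_mem_JHU {F : Type} [Fintype F] (Q : QD I F B Λ) (ν : I → ℤ)
    (h0 : ∑ b, ν (Q.vx b) = 0)
    (h : Q.gen.D ∈ Ideal.span {f | ∃ U : Finset B, ∑ b ∈ U, ν (Q.gen.vx b) ≠ 0 ∧
      f = Q.gen.cut U}) : (1 : SS B Λ) ∈ Q.JHU := by
  refine ⟨1, ⟨Subalgebra.one_mem _, ?_⟩, map_one _⟩
  rw [mul_one]
  refine Ideal.span_mono ?_ h
  rintro f ⟨U, hU, rfl⟩
  refine ⟨U, ?_, ?_, rfl⟩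
  · rw [Finset.nonempty_iff_ne_empty]
    rintro rfl
    simp at hU
  · rintro rfl
    exact hU h0

/-- Geometric regularity implies the condition `Reg`. -/
theorem reg_of_regular (Q : QD I (E ⊕ L) B Λ) (s t : E → I) (c : L → I)
    (hs : ∀ e, Q.src (Sum.inl e) = s e) (ht : ∀ e, Q.tgt (Sum.inl e) = some (t e))
    (hc : ∀ l, Q.src (Sum.inr l) = c l) (hn : ∀ l, Q.tgt (Sum.inr l) = none) (ν : I → ℤ)
    (V : I → Type) [∀ i, AddCommGroup (V i)] [∀ i, Module ℂ (V i)]
    [∀ i, FiniteDimensional ℂ (V i)]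
    (hV : ∀ i, Module.finrank ℂ (V i) = Fintype.card {b : B // Q.vx b = i})
    (hreg : ∀ z : Rp ℂ s t c V, (∀ ξ, z.mu ξ = 0) → z.SS ν → z.St ν) : Q.Reg ν := by
  intro g hg hν
  by_contra hcon
  push Not at hcon
  obtain ⟨h0, h1⟩ := hcon
  -- the framed block
  have hF : Ex s t c ν (fun i => Fintype.card {b : B // Q.vx b = i ∧ g b ≤ 0}) := by
    set P := Finset.univ.filter fun b => g b = 0 with hP
    obtain ⟨z, hz, hz'⟩ := exists_block (Q.res P).gen s t c (Equiv.refl _) hs ht hc hn ν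
      (fun h => h0 (one_mem_JH _ ν h))
    have hcard : ∀ i, Fintype.card {b : {b // b ∈ P} // Q.vx b = i} =
        Fintype.card {b : B // Q.vx b = i ∧ g b ≤ 0} := by
      intro i
      refine Fintype.card_congr ⟨fun b => ⟨b.1.1, b.2, ?_⟩, fun b => ⟨⟨b.1, ?_⟩, b.2.1⟩,
        fun _ => rfl, fun _ => rfl⟩
      · exact (Finset.mem_filter.mp b.1.2).2.le
      · exact Finset.mem_filter.mpr ⟨Finset.mem_univ _, Nat.le_zero.mp b.2.2⟩
    exact ex_of _ (fun i => by
      rw [Module.finrank_fintype_fun_eq_card, Fintype.card_fin]; exact hcard i) z hz hz'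
  -- the unframed blocks
  have hU : ∀ j, j ≠ 0 → (∃ b, g b = j) →
      ExU s t ν (fun i => Fintype.card {b : B // Q.vx b = i ∧ g b = j}) := by
    intro j hj hjb
    set P := Finset.univ.filter fun b => g b = j with hP
    let f : E ⊕ Empty → {a : E ⊕ L // Q.tgt a ≠ none} := fun e =>
      ⟨Sum.elim Sum.inl (fun l => l.elim) e, by
        cases e with
        | inl e => simp [ht]
        | inr l => exact l.elim⟩
    have hf : Function.Bijective f := by
      constructor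
      · rintro (a | a) (b | b) hab
        · simp only [f, Subtype.mk.injEq, Sum.elim_inl, Sum.inl.injEq] at hab
          rw [hab]
        · exact b.elim
        · exact a.elim
        · exact a.elim
      · rintro ⟨(a | a), ha⟩
        · exact ⟨Sum.inl a, rfl⟩
        · exact absurd (hn a) ha
    obtain ⟨z, hz, hz'⟩ := exists_block (Q.resU P).gen s t (fun l : Empty => l.elim)
      (Equiv.ofBijective f hf) hs ht (fun l => l.elim) (fun l => l.elim) ν
      (fun h => h1 j hj hjb (one_mem_JHU _ ν (by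
        exact (Finset.sum_coe_sort P fun b => ν (Q.vx b)).trans (hν j hj)) h))
    have hcard : ∀ i, Fintype.card {b : {b // b ∈ P} // Q.vx b = i} =
        Fintype.card {b : B // Q.vx b = i ∧ g b = j} := by
      intro i
      refine Fintype.card_congr ⟨fun b => ⟨b.1.1, b.2, ?_⟩, fun b => ⟨⟨b.1, ?_⟩, b.2.1⟩,
        fun _ => rfl, fun _ => rfl⟩
      · exact (Finset.mem_filter.mp b.1.2).2
      · exact Finset.mem_filter.mpr ⟨Finset.mem_univ _, b.2.2⟩
    exact ex_of _ (fun i => by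
      rw [Module.finrank_fintype_fun_eq_card, Fintype.card_fin]; exact hcard i) z hz hz'
  -- dimensions
  have hdim : ∀ (i : I) (k : ℕ), Fintype.card {b : B // Q.vx b = i ∧ g b ≤ k} +
      Fintype.card {b : B // Q.vx b = i ∧ g b = k + 1} =
      Fintype.card {b : B // Q.vx b = i ∧ g b ≤ k + 1} := by
    intro i k
    rw [Fintype.card_subtype, Fintype.card_subtype, Fintype.card_subtype,
      ← Finset.card_union_of_disjoint]
    · congr 1
      ext b
      simp only [Finset.mem_union, Finset.mem_filter, Finset.mem_univ, true_and]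
      constructor
      · rintro (h | h)
        · exact ⟨h.1, by omega⟩
        · exact ⟨h.1, by omega⟩
      · rintro ⟨h, h'⟩
        rcases Nat.lt_or_ge (g b) (k + 1) with h2 | h2
        · exact Or.inl ⟨h, by omega⟩
        · exact Or.inr ⟨h, by omega⟩
    · rw [Finset.disjoint_filter]
      rintro b - h h'
      omega
  have hsum0 : ∀ j, j ≠ 0 → ∑ i, ν i * (Fintype.card {b : B // Q.vx b = i ∧ g b = j} : ℤ) = 0 := by
    intro j hj
    rw [← hν j hj, ← Finset.sum_fiberwise (Finset.univ.filter fun b => g b = j) Q.vx]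
    refine Finset.sum_congr rfl fun i _ => ?_
    rw [Finset.sum_congr rfl (g := fun _ => ν i), Finset.sum_const, Fintype.card_subtype,
      nsmul_eq_mul, mul_comm]
    · congr 3
      ext b
      simp [and_comm]
    · intro b hb
      rw [(Finset.mem_filter.mp hb).2]
  -- induction on the colours
  have hall : ∀ k, Ex s t c ν (fun i => Fintype.card {b : B // Q.vx b = i ∧ g b ≤ k}) := by
    intro k
    induction k with
    | zero => exact hF
    | succ k ih =>
      by_cases hk : ∃ b, g b = k + 1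
      · obtain ⟨z, hz, hz'⟩ := ih
        obtain ⟨y, hy, hy'⟩ := hU (k + 1) (by omega) hk
        refine ex_of _ (fun i => ?_) (z.sum y) (fun ξ => ?_) (z.SS_sum y ?_ hz' hy')
        · rw [Module.finrank_prod]
          simpa using hdim i k
        · rw [z.mu_sum, hz, hy, add_zero]
        · simpa using hsum0 (k + 1) (by omega)
      · obtain ⟨z, hz, hz'⟩ := ih
        refine ex_of _ (fun i => ?_) z hz hz'
        have h2 := hdim i k
        have h3 : Fintype.card {b : B // Q.vx b = i ∧ g b = k + 1} = 0 := by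
          rw [Fintype.card_eq_zero_iff]
          exact ⟨fun b => hk ⟨b.1, b.2.2⟩⟩
        rw [h3, add_zero] at h2
        simpa using h2
  -- the last colour
  have hBne : (Finset.univ : Finset B).Nonempty := by
    by_contra hne
    apply hg
    funext b
    exact absurd ⟨b, Finset.mem_univ b⟩ hne
  obtain ⟨b0, -, hb0⟩ := Finset.exists_max_image Finset.univ g hBne
  have hpos : g b0 ≠ 0 := by
    intro h2
    apply hg
    funext b
    have := hb0 b (Finset.mem_univ b)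
    rw [h2] at this
    exact Nat.le_zero.mp this
  obtain ⟨k, hk⟩ := Nat.exists_eq_succ_of_ne_zero hpos
  obtain ⟨z, hz, hz'⟩ := hall k
  obtain ⟨y, hy, hy'⟩ := hU (k + 1) (by omega) ⟨b0, hk⟩
  have hs1 := z.SS_sum y (by simpa using hsum0 (k + 1) (by omega)) hz' hy'
  have hd : ∀ i, Module.finrank ℂ ((Fin (Fintype.card {b : B // Q.vx b = i ∧ g b ≤ k}) → ℂ) ×
      (Fin (Fintype.card {b : B // Q.vx b = i ∧ g b = k + 1}) → ℂ)) =
      Module.finrank ℂ (V i) := by
    intro i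
    rw [Module.finrank_prod, hV]
    simp only [Module.finrank_fintype_fun_eq_card, Fintype.card_fin]
    rw [hdim i k]
    refine Fintype.card_congr (Equiv.subtypeEquivRight fun b => ?_)
    have := hb0 b (Finset.mem_univ b)
    constructor
    · exact fun h => h.1
    · exact fun h => ⟨h, by omega⟩
  obtain ⟨φ, h2, h3⟩ := transport hd (z.sum y) (fun ξ => by rw [z.mu_sum, hz, hy, add_zero]) hs1
  refine z.not_St_sum y (by simpa using hsum0 (k + 1) (by omega)) ?_
    (Rp.St_of_map _ φ (hreg _ h2 h3))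
  refine ⟨Q.vx b0, ?_⟩
  rw [Module.finrank_fintype_fun_eq_card, Fintype.card_fin]
  exact (Fintype.card_pos_iff.mpr ⟨⟨b0, rfl, hk⟩⟩).ne'

end

end Vale.Agent.P291.Link
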