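import Vale.Agent.P291.Link.LCore
import Vale.Agent.P291.H564.KD

/-!
# P291, block LINK, L2g: the K-theoretic vanishing theorem
-/

set_option linter.unusedSectionVars false

open MvPolynomial

namespace Vale.Agent.P291.Link

/-- `s = ∑_j q_j ∏_{p ∈ τ_j} x_p` -/
noncomputable def sec (k : Type) [Field k] {ι T : Type} [Fintype T] (τ : T → Finset ι) :
    MvPolynomial (ι ⊕ T) k :=
  ∑ j, X (Sum.inr j) * ∏ p ∈ τ j, X (Sum.inl p)

/-- finiteness of graded pieces from a positive functional -/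
theorem fin_of_pos {V Γ : Type} [Fintype V] [AddCommGroup Γ] (w : V → Γ) (ψ : Γ →+ ℤ)
    (hψ : ∀ v, 0 < ψ (w v)) : L2K.Fin' w := by
  classical
  intro γ
  refine (Set.finite_Icc (0 : V →₀ ℕ)
    (Finsupp.equivFunOnFinite.symm fun _ => (ψ γ).toNat)).subset ?_
  intro d hd
  refine ⟨zero_le, ?_⟩
  intro v
  rw [Finsupp.equivFunOnFinite_symm_apply_apply]
  have h1 : ψ γ = ∑ v, (d v : ℤ) * ψ (w v) := by
    have hd' : Finsupp.weight w d = γ := hd
    rw [← hd', Finsupp.weight_apply, map_finsuppSum, Finsupp.sum_fintype _ _ (by simp)]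
    refine Finset.sum_congr rfl fun i _ => ?_
    rw [map_nsmul, nsmul_eq_mul]
  have h2 : (d v : ℤ) ≤ ψ γ := by
    rw [h1]
    have h3 : (d v : ℤ) ≤ (d v : ℤ) * ψ (w v) := by
      have := hψ v
      have h4 : (0 : ℤ) ≤ d v := Int.natCast_nonneg _
      nlinarith
    refine h3.trans (Finset.single_le_sum (f := fun v => (d v : ℤ) * ψ (w v)) (fun i _ => ?_)
      (Finset.mem_univ v))
    exact mul_nonneg (Int.natCast_nonneg _) (hψ i).le
  omega

/-- **The K-theoretic vanishing theorem**. -/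
theorem vanish {k ι T Γ S : Type} [Field k] [IsAlgClosed k] [AddCommGroup Γ] [Fintype ι]
    [DecidableEq ι] [Fintype T] [DecidableEq T] [Fintype S] (w : ι → Γ) (φ : Γ →+ ℤ)
    (hφ : ∀ p, 0 < φ (w p)) (τ : T → Finset ι) (α : S → Γ)
    (f : S → MvPolynomial (ι ⊕ T) k)
    (hf : ∀ a, IsWeightedHomogeneous
      (Sum.elim (fun p => (w p, (0 : ℤ))) (fun j => (- ∑ p ∈ τ j, w p, (1 : ℤ)))) (f a)
      (α a, (1 : ℤ)))
    (hz : ∀ z : ι ⊕ T → k, (∀ a, eval z (f a) = 0) → eval z (sec k τ) = 0) :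
    ∏ a, om (α a) ∈ Ideal.span {g : AddMonoidAlgebra ℤ Γ |
      ∃ Z : Finset ι, (∀ j, ¬ Disjoint (τ j) Z) ∧ g = ∏ p ∈ Z, om (w p)} := by
  classical
  set 𝔠 := Ideal.span {g : AddMonoidAlgebra ℤ Γ |
      ∃ Z : Finset ι, (∀ j, ¬ Disjoint (τ j) Z) ∧ g = ∏ p ∈ Z, om (w p)} with h𝔠
  set w' : ι ⊕ T → Γ × ℤ :=
    Sum.elim (fun p => (w p, (0 : ℤ))) (fun j => (- ∑ p ∈ τ j, w p, (1 : ℤ))) with hw'
  let π : AddMonoidAlgebra ℤ (Γ × ℤ) →+* AddMonoidAlgebra ℤ Γ :=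
    AddMonoidAlgebra.mapDomainRingHom ℤ (AddMonoidHom.fst Γ ℤ)
  have hπ : ∀ γ : Γ × ℤ, π (1 - L2K.ee γ) = om γ.1 := by
    intro γ
    rw [map_sub, map_one, om]
    congr 1
    exact AddMonoidAlgebra.mapDomain_single
  -- finiteness
  have hφ0 : ∀ j, φ (∑ p ∈ τ j, w p) ≤ ∑ p, φ (w p) := by
    intro j
    rw [map_sum]
    exact Finset.sum_le_sum_of_subset_of_nonneg (Finset.subset_univ _) fun i _ _ => (hφ i).le
  have hw : L2K.Fin' w' := by
    refine fin_of_pos w' (AddMonoidHom.coprod φ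
      (AddMonoidHom.mulRight (1 + ∑ p, φ (w p)))) ?_
    rintro (p | j)
    · simp only [hw', Sum.elim_inl, AddMonoidHom.coprod_apply, AddMonoidHom.coe_mulRight, zero_mul,
        add_zero]
      exact hφ p
    · simp only [hw', Sum.elim_inr, AddMonoidHom.coprod_apply, AddMonoidHom.coe_mulRight, one_mul,
        map_neg]
      have := hφ0 j
      linarith
  have hq : ∀ j, w' (Sum.inr j) + ∑ p ∈ τ j, w' (Sum.inl p) = ((0 : Γ), (1 : ℤ)) := by
    intro j
    simp only [hw', Sum.elim_inr, Sum.elim_inl]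
    refine Prod.ext ?_ ?_
    · rw [Prod.fst_add, Prod.fst_sum, neg_add_cancel]
    · rw [Prod.snd_add, Prod.snd_sum]
      simp
  have h1 : (1 - L2K.ee ((0 : Γ), (1 : ℤ))) ∈ 𝔠.comap π := by
    rw [Ideal.mem_comap, hπ, om]
    change (1 : AddMonoidAlgebra ℤ Γ) - AddMonoidAlgebra.single 0 1 ∈ 𝔠
    rw [← AddMonoidAlgebra.one_def, sub_self]
    exact 𝔠.zero_mem
  have hZ : ∀ Z : Finset ι, (∀ j, ¬ Disjoint (τ j) Z) →
      ∏ p ∈ Z, (1 - L2K.ee (w' (Sum.inl p))) ∈ 𝔠.comap π := by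
    intro Z hZ
    rw [Ideal.mem_comap, map_prod]
    refine Ideal.subset_span ⟨Z, hZ, ?_⟩
    exact Finset.prod_congr rfl fun p _ => hπ (w p, (0 : ℤ))
  have hae : ∀ (z : ι ⊕ T → k) (p : MvPolynomial (ι ⊕ T) k), aeval z p = eval z p := by
    intro z p
    rw [aeval_def, Algebra.algebraMap_self, eval₂_id]
  have hrad : L2K.sec k τ ∈ (Ideal.span (Set.range f)).radical := by
    rw [← MvPolynomial.vanishingIdeal_zeroLocus_eq_radical (K := k)]
    intro z hz'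
    have h2 := hz z fun a => (hae z (f a)).symm.trans (hz' (f a) (Ideal.subset_span ⟨a, rfl⟩))
    exact (hae z _).trans h2
  have key := L2K.linkK hw hq (𝔠.comap π) h1 hZ f (fun a => (α a, (1 : ℤ))) hf hrad
  rw [Ideal.mem_comap, map_prod] at key
  have e : ∏ a, om (α a) = ∏ a, π (1 - L2K.ee (α a, (1 : ℤ))) :=
    Finset.prod_congr rfl fun a _ => (hπ (α a, (1 : ℤ))).symm
  rw [e]
  exact key

end Vale.Agent.P291.Link
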