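import Vale.Agent.P291.Link.LCore

/-!
# P291, block LINK, L2h: from K-theory to cohomology

`e^γ ↦ exp (h ℓ(γ))` in power series in `h` over the quotient ring.
-/

open PowerSeries

namespace Vale.Agent.P291.Link

namespace L2h

variable {A : Type} [CommRing A] [Algebra ℚ A]

/-- `exp (x h)` -/
noncomputable def ex (x : A) : A⟦X⟧ := rescale x (exp A)

/-- `(1 - exp (x h)) / (x h)` -/
noncomputable def EE (x : A) : A⟦X⟧ :=
  PowerSeries.mk fun n => - (x ^ n * algebraMap ℚ A (1 / ((n + 1).factorial : ℚ)))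

theorem ex_zero : ex (0 : A) = 1 := by
  rw [ex, rescale_zero]
  simp

theorem ex_add (x y : A) : ex (x + y) = ex x * ex y := (exp_mul_exp_eq_exp_add x y).symm

theorem one_sub_ex (x : A) : 1 - ex x = X * (C x * EE x) := by
  ext n
  cases n with
  | zero =>
    rw [coeff_zero_X_mul, map_sub, ex, coeff_rescale, coeff_exp, coeff_one, if_pos rfl]
    simp
  | succ n =>
    rw [coeff_succ_X_mul, coeff_C_mul, EE, coeff_mk, map_sub, ex, coeff_rescale, coeff_exp,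
      coeff_one, if_neg (Nat.succ_ne_zero n)]
    ring

theorem constCoeff_EE (x : A) : constantCoeff (EE x) = -1 := by
  rw [EE, ← coeff_zero_eq_constantCoeff_apply, coeff_mk]
  simp

variable {Γ : Type} [AddCommGroup Γ]

/-- `e^γ ↦ exp (h ℓ(γ))` as a ring homomorphism -/
noncomputable def Ph (ℓ : Γ →+ A) : AddMonoidAlgebra ℤ Γ →ₐ[ℤ] A⟦X⟧ :=
  AddMonoidAlgebra.lift ℤ A⟦X⟧ Γ
    { toFun := fun g => ex (ℓ g.toAdd)
      map_one' := by simp [ex_zero]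
      map_mul' := fun a b => by simp [ex_add] }

theorem Ph_om (ℓ : Γ →+ A) (γ : Γ) : Ph ℓ (om γ) = X * (C (ℓ γ) * EE (ℓ γ)) := by
  rw [om, map_sub, map_one, Ph, AddMonoidAlgebra.lift_single, ← one_sub_ex]
  exact congrArg (fun y : A⟦X⟧ => 1 - y) (one_smul ℤ (ex (ℓ γ)))

theorem Ph_prod (ℓ : Γ →+ A) {ι : Type} (s : Finset ι) (w : ι → Γ) :
    Ph ℓ (∏ p ∈ s, om (w p)) =
      X ^ s.card * (C (∏ p ∈ s, ℓ (w p)) * ∏ p ∈ s, EE (ℓ (w p))) := by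
  rw [map_prod, Finset.prod_congr rfl fun p _ => Ph_om ℓ (w p), Finset.prod_mul_distrib,
    Finset.prod_mul_distrib, Finset.prod_const, map_prod]

theorem prod_eq_zero {ι S : Type} [Fintype S] (ℓ : Γ →+ A) (w : ι → Γ) (α : S → Γ)
    (Zs : Set (Finset ι)) (hZ : ∀ Z ∈ Zs, ∏ p ∈ Z, ℓ (w p) = 0)
    (h : ∏ a, om (α a) ∈ Ideal.span {g : AddMonoidAlgebra ℤ Γ | ∃ Z ∈ Zs, g = ∏ p ∈ Z, om (w p)}) :
    ∏ a, ℓ (α a) = 0 := by
  have h1 : Ph ℓ (∏ a, om (α a)) = 0 := by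
    have : Ideal.span {g : AddMonoidAlgebra ℤ Γ | ∃ Z ∈ Zs, g = ∏ p ∈ Z, om (w p)} ≤
        RingHom.ker (Ph ℓ) := by
      rw [Ideal.span_le]
      rintro g ⟨Z, hZZ, rfl⟩
      rw [SetLike.mem_coe, RingHom.mem_ker, Ph_prod, hZ Z hZZ]
      simp
    exact this h
  rw [Ph_prod] at h1
  have h2 := congrArg (coeff (Finset.univ : Finset S).card) h1
  rw [coeff_X_pow_mul' , if_pos le_rfl, Nat.sub_self, coeff_C_mul, map_zero,
    coeff_zero_eq_constantCoeff_apply, map_prod,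
    Finset.prod_congr rfl fun p _ => constCoeff_EE (ℓ (α p)), Finset.prod_const] at h2
  rcases neg_one_pow_eq_or A (Finset.univ : Finset S).card with h3 | h3 <;> rw [h3] at h2
  · simpa using h2
  · simpa using h2

end L2h

theorem k_to_coh {Λ : Type} [CommRing Λ] [Algebra ℚ Λ] {Γ : Type} [AddCommGroup Γ]
    (ℓ : Γ →+ Λ) {ι S : Type} [Fintype S] (w : ι → Γ) (α : S → Γ) (𝒵 : Set (Finset ι))
    (h : ∏ a, om (α a) ∈ Ideal.span {g : AddMonoidAlgebra ℤ Γ | ∃ Z ∈ 𝒵, g = ∏ p ∈ Z, om (w p)}) :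
    ∏ a, ℓ (α a) ∈ Ideal.span {g : Λ | ∃ Z ∈ 𝒵, g = ∏ p ∈ Z, ℓ (w p)} := by
  set J : Ideal Λ := Ideal.span {g : Λ | ∃ Z ∈ 𝒵, g = ∏ p ∈ Z, ℓ (w p)} with hJ
  have := L2h.prod_eq_zero (A := Λ ⧸ J)
    ((Ideal.Quotient.mk J : Λ →+* Λ ⧸ J).toAddMonoidHom.comp ℓ) w α 𝒵 (fun Z hZ => by
      have h1 : ∏ p ∈ Z, ℓ (w p) ∈ J := Ideal.subset_span ⟨Z, hZ, rfl⟩
      rw [← Ideal.Quotient.eq_zero_iff_mem, map_prod] at h1
      exact h1) h
  rw [← Ideal.Quotient.eq_zero_iff_mem, map_prod]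
  exact this

end Vale.Agent.P291.Link
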