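import Mathlib

/-!
# P291, block LINK, L3a: flows
-/

namespace Vale.Agent.P291.Link

/-- If every set `U` not crossed by `τ` has `∑_U ν = 0`, there is a flow supported on `τ` with
divergence `ν` (edges `e : ε` from `a e : B` to `b e : Option B`). -/
theorem exists_flow {ε B : Type} [Fintype ε] [DecidableEq ε] [Fintype B] [DecidableEq B]
    (a : ε → B) (b : ε → Option B) (ν : B → ℤ) (τ : Finset ε)
    (h : ∀ U : Finset B, (∀ e ∈ τ, (a e ∈ U ↔ ∃ r ∈ U, b e = some r)) → ∑ r ∈ U, ν r = 0) :
    ∃ φ : ε → ℚ, (∀ e, e ∉ τ → φ e = 0) ∧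
      ∀ r, ∑ e, φ e * ((if b e = some r then 1 else 0) - (if a e = r then 1 else 0)) = ν r := by
  classical
  set v : ε → B → ℚ := fun e => if e ∈ τ then
    (fun r => (if b e = some r then 1 else 0) - (if a e = r then 1 else 0)) else 0 with hv
  by_cases hW : (fun r => (ν r : ℚ)) ∈ Submodule.span ℚ (Set.range v)
  · rw [Submodule.mem_span_range_iff_exists_fun] at hW
    obtain ⟨c, hc⟩ := hW
    refine ⟨fun e => if e ∈ τ then c e else 0, fun e he => if_neg he, fun r => ?_⟩
    rw [← congrFun hc r, Finset.sum_apply]
    refine Finset.sum_congr rfl fun e _ => ?_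
    by_cases he : e ∈ τ <;> simp [hv, he]
  · exfalso
    obtain ⟨f, hf1, hf2⟩ := Submodule.exists_dual_map_eq_bot_of_notMem hW inferInstance
    have hf3 : ∀ e, f (v e) = 0 := by
      intro e
      have : f (v e) ∈ Submodule.map f (Submodule.span ℚ (Set.range v)) :=
        Submodule.mem_map_of_mem (Submodule.subset_span ⟨e, rfl⟩)
      rw [hf2] at this
      exact this
    set F : B → ℚ := fun r => f (Pi.single r 1) with hF
    have hfF : ∀ g : B → ℚ, f g = ∑ r, g r * F r := by
      intro g
      conv_lhs => rw [pi_eq_sum_univ' g, map_sum]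
      refine Finset.sum_congr rfl fun r _ => ?_
      rw [map_smul, smul_eq_mul, hF]
    have key : ∀ e ∈ τ, (b e).elim 0 F = F (a e) := by
      intro e he
      have h1 := hf3 e
      rw [hfF] at h1
      simp only [hv, if_pos he, sub_mul, ite_mul, one_mul, zero_mul, Finset.sum_sub_distrib,
        Finset.sum_ite_eq, Finset.mem_univ, if_true] at h1
      rcases hb : b e with _ | r
      · simp only [hb, reduceCtorEq, if_false, Finset.sum_const_zero] at h1
        simp only [Option.elim_none]
        linarith
      · simp only [hb, Option.some.injEq, Finset.sum_ite_eq, Finset.mem_univ, if_true] at h1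
        simp only [Option.elim_some]
        linarith
    apply hf1
    rw [hfF]
    rw [← Finset.sum_fiberwise_of_maps_to (s := Finset.univ) (t := Finset.univ.image F) (g := F)
      (fun r _ => Finset.mem_image_of_mem _ (Finset.mem_univ _))]
    refine Finset.sum_eq_zero fun c _ => ?_
    rw [Finset.sum_congr rfl (g := fun r => (ν r : ℚ) * c) (fun r hr => by
      rw [(Finset.mem_filter.mp hr).2]), ← Finset.sum_mul]
    by_cases hc0 : c = 0
    · rw [hc0, mul_zero]
    have := h (Finset.univ.filter fun r => F r = c) (fun e he => by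
      have hk := key e he
      simp only [Finset.mem_filter, Finset.mem_univ, true_and]
      rw [← hk]
      rcases hb : b e with _ | r
      · simp only [Option.elim_none, reduceCtorEq, and_false, exists_false, iff_false]
        exact fun h => hc0 h.symm
      · simp only [Option.elim_some, Option.some.injEq]
        exact ⟨fun h => ⟨r, h, rfl⟩, fun ⟨r', h1, h2⟩ => h2 ▸ h1⟩)
    rw [← Int.cast_sum, this, Int.cast_zero, zero_mul]

end Vale.Agent.P291.Link
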