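import Vale.Agent.P291.RCore
import Vale.Agent.P291.Link.L2gBlk
import Vale.Agent.P291.Link.L2hBlk
import Vale.Agent.P291.Link.L3aBlk

/-!
# P291, block LINK: `D` lies in the ideal of the cuts of nonzero `ν`-weight if `μ^{-1}(ν)` is empty
-/

open MvPolynomial

namespace Vale.Agent.P291.Link



variable {I E B Λ : Type} [Fintype E] [DecidableEq I] [Fintype B] [DecidableEq B] [CommRing Λ]
  [IsDomain Λ]
variable (Q : QD I E B Λ)

/-- The entry `(b, b')` of the moment map at a point of `N ⊕ N^*` given by its coordinates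
`x p`, `y p` with respect to the weights `p = (a, r, s)`. -/
noncomputable def muE {k : Type} [CommRing k] (x y : E × B × Option B → k) (b b' : B) : k :=
  ∑ p ∈ Q.Wt.filter (fun p => p.2.2 = some b), x p * y (p.1, p.2.1, some b') -
    ∑ p ∈ Q.Wt.filter (fun p => p.2.1 = b), y p * x (p.1, b', p.2.2)

namespace L3

/-- weights in the free abelian group on `B` and `E` -/
def wE [DecidableEq E] (p : E × B × Option B) : (B → ℤ) × (E → ℤ) :=
  ((p.2.2.elim 0 fun s => Pi.single s 1) - Pi.single p.2.1 1, Pi.single p.1 1)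

/-- the total weight with respect to `E` -/
def phE (B E : Type) [Fintype E] : (B → ℤ) × (E → ℤ) →+ ℤ where
  toFun γ := ∑ e, γ.2 e
  map_zero' := by simp
  map_add' γ δ := by simp [Finset.sum_add_distrib]

omit [Fintype B] [DecidableEq I] in
theorem phE_wE [DecidableEq E] (p : E × B × Option B) : phE B E (wE p) = 1 := by
  simp [phE, wE]

/-- the linear form of a weight -/
noncomputable def ell : (B → ℤ) × (E → ℤ) →+ SS B Λ where
  toFun γ := ∑ b, (γ.1 b : SS B Λ) * X b + ∑ e, (γ.2 e : SS B Λ) * C (Q.t e)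
  map_zero' := by simp
  map_add' γ δ := by
    simp only [Prod.fst_add, Pi.add_apply, Prod.snd_add, Int.cast_add, add_mul,
      Finset.sum_add_distrib]
    ring

omit [DecidableEq I] in
theorem sum_single_X (r : B) :
    ∑ b, (((Pi.single r 1 : B → ℤ) b : ℤ) : SS B Λ) * X b = X r := by
  rw [Finset.sum_eq_single r]
  · simp
  · intro b _ hb
    simp [Pi.single_eq_of_ne hb]
  · simp

omit [DecidableEq I] in
theorem ell_wE [DecidableEq E] (p : E × B × Option B) : ell Q (wE p) = Q.xi p := by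
  obtain ⟨a, r, s⟩ := p
  have h2 : ∑ e, (((Pi.single a 1 : E → ℤ) e : ℤ) : SS B Λ) * C (Q.t e) = C (Q.t a) := by
    rw [Finset.sum_eq_single a]
    · simp
    · intro b _ hb
      simp [Pi.single_eq_of_ne hb]
    · simp
  simp only [ell, wE, AddMonoidHom.coe_mk, ZeroHom.coe_mk, QD.xi, Pi.sub_apply, Int.cast_sub,
    sub_mul, Finset.sum_sub_distrib, sum_single_X, h2]
  cases s with
  | none => simp [xo]
  | some s => simp [xo, sum_single_X]

omit [DecidableEq I] in
theorem ell_root (b b' : B) :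
    ell Q ((Pi.single b 1 - Pi.single b' 1 : B → ℤ), (0 : E → ℤ)) = X b - X b' := by
  simp [ell, sub_mul, Finset.sum_sub_distrib, sum_single_X]

/-- The auxiliary polynomial `y_p = ∑_{τ ∋ p} q_τ φ_τ(p) x^{τ - p}`. -/
noncomputable def yP {ι T : Type} [DecidableEq ι] [Fintype T] (τ : T → Finset ι) (φ : T → ι → ℚ)
    (p : ι) : MvPolynomial (ι ⊕ T) ℂ :=
  ∑ j : T, if p ∈ τ j then
      X (Sum.inr j) * (C ((φ j p : ℚ) : ℂ) * ∏ p' ∈ (τ j).erase p, X (Sum.inl p')) else 0

theorem x_mul_yP {ι T : Type} [DecidableEq ι] [Fintype T] (τ : T → Finset ι) (φ : T → ι → ℚ)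
    (hφ0 : ∀ j, ∀ p, p ∉ τ j → φ j p = 0) (z : ι ⊕ T → ℂ) (p : ι) :
    z (Sum.inl p) * eval z (yP τ φ p) = ∑ j : T, ((φ j p : ℚ) : ℂ) *
      (z (Sum.inr j) * (∏ p' ∈ τ j, z (Sum.inl p'))) := by
  rw [yP, map_sum, Finset.mul_sum]
  refine Finset.sum_congr rfl fun j _ => ?_
  split_ifs with hp
  · rw [← Finset.mul_prod_erase _ _ hp]
    simp only [map_mul, eval_X, eval_C, map_prod]
    ring
  · rw [hφ0 j p hp]
    simp

omit [CommRing Λ] [IsDomain Λ] in
theorem muE_diag [DecidableEq E] {T : Type} [Fintype T] (τ : T → Finset (E × B × Option B))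
    (φ : T → E × B × Option B → ℚ) (hτ : ∀ j, τ j ⊆ Q.Wt)
    (hφ0 : ∀ j, ∀ p, p ∉ τ j → φ j p = 0) (ν : B → ℤ)
    (hφ : ∀ j, ∀ r : B, ∑ e, φ j e * ((if e.2.2 = some r then 1 else 0) -
      (if e.2.1 = r then 1 else 0)) = ν r)
    (z : (E × B × Option B) ⊕ T → ℂ) (b : B) :
    muE Q (fun p => z (Sum.inl p)) (fun p => eval z (yP τ φ p)) b b =
      eval z (sec ℂ τ) * ν b := by
  have h1 : ∑ p ∈ Q.Wt.filter (fun p => p.2.2 = some b),
      z (Sum.inl p) * eval z (yP τ φ (p.1, p.2.1, some b)) =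
      ∑ p ∈ Q.Wt, z (Sum.inl p) * eval z (yP τ φ p) * (if p.2.2 = some b then 1 else 0) := by
    rw [Finset.sum_filter]
    refine Finset.sum_congr rfl fun p _ => ?_
    obtain ⟨p1, p2, p3⟩ := p
    by_cases h : p3 = some b
    · subst h; simp
    · simp [h]
  have h2 : ∑ p ∈ Q.Wt.filter (fun p => p.2.1 = b),
      eval z (yP τ φ p) * z (Sum.inl (p.1, b, p.2.2)) =
      ∑ p ∈ Q.Wt, z (Sum.inl p) * eval z (yP τ φ p) * (if p.2.1 = b then 1 else 0) := by
    rw [Finset.sum_filter]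
    refine Finset.sum_congr rfl fun p _ => ?_
    obtain ⟨p1, p2, p3⟩ := p
    by_cases h : p2 = b
    · subst h; simp [mul_comm]
    · simp [h]
  rw [muE, h1, h2, ← Finset.sum_sub_distrib]
  have h3 : ∀ p ∈ Q.Wt, z (Sum.inl p) * eval z (yP τ φ p) * (if p.2.2 = some b then 1 else 0) -
      z (Sum.inl p) * eval z (yP τ φ p) * (if p.2.1 = b then 1 else 0) =
      ∑ j : T, ((φ j p * ((if p.2.2 = some b then 1 else 0) - (if p.2.1 = b then 1 else 0)) : ℚ) :
        ℂ) * (z (Sum.inr j) * (∏ p' ∈ τ j, z (Sum.inl p'))) := by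
    intro p _
    rw [x_mul_yP τ φ hφ0, ← mul_sub, Finset.sum_mul]
    refine Finset.sum_congr rfl fun j _ => ?_
    split_ifs <;> push_cast <;> ring
  rw [Finset.sum_congr rfl h3, Finset.sum_comm]
  have h4 : ∀ j : T, ∑ p ∈ Q.Wt,
      ((φ j p * ((if p.2.2 = some b then 1 else 0) - (if p.2.1 = b then 1 else 0)) : ℚ) :
        ℂ) * (z (Sum.inr j) * (∏ p' ∈ τ j, z (Sum.inl p'))) =
      ν b * (z (Sum.inr j) * (∏ p' ∈ τ j, z (Sum.inl p'))) := by
    intro j
    rw [← Finset.sum_mul, ← Rat.cast_sum]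
    congr 1
    have h5 := Finset.sum_subset (Finset.subset_univ Q.Wt) (f := fun p => φ j p *
      ((if p.2.2 = some b then 1 else 0) - (if p.2.1 = b then 1 else 0))) fun p _ hp => by
        rw [hφ0 j p fun hp' => hp (hτ j hp'), zero_mul]
    rw [h5, hφ j b, Rat.cast_intCast]
  rw [Finset.sum_congr rfl fun j _ => h4 j, ← Finset.mul_sum, mul_comm]
  congr 1
  simp [sec]

end L3

open L3 in
/-- If `μ^{-1}(ν)` is empty, then `D` lies in the ideal generated by the cut products of the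
subsets `U` with `∑_U ν ≠ 0`. -/
theorem D_mem_cut [Algebra ℚ Λ] (ν : B → ℤ)
    (h : ¬ ∃ x y : E × B × Option B → ℂ, ∀ b b' : B, Q.vx b = Q.vx b' →
      muE Q x y b b' = if b = b' then (ν b : ℂ) else 0) :
    Q.D ∈ Ideal.span {f | ∃ U : Finset B, ∑ b ∈ U, ν b ≠ 0 ∧ f = Q.cut U} := by
  classical
  let ι := E × B × Option B
  let adm : Finset ι → Prop := fun τ => τ ⊆ Q.Wt ∧ ∃ φ : ι → ℚ, (∀ e, e ∉ τ → φ e = 0) ∧
      ∀ r, ∑ e, φ e * ((if e.2.2 = some r then 1 else 0) - (if e.2.1 = r then 1 else 0)) = ν r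
  let T := {τ : Finset ι // adm τ}
  let τ : T → Finset ι := fun j => j.1
  have hτW : ∀ j, τ j ⊆ Q.Wt := fun j => j.2.1
  choose φ hφ0 hφ using fun j : T => j.2.2
  let S := {p : B × B // p ∈ Q.Prs.filter (fun p => p.1 ≠ p.2)}
  let α : S → (B → ℤ) × (E → ℤ) := fun p => (Pi.single p.1.1 1 - Pi.single p.1.2 1, 0)
  let Y : ι → MvPolynomial (ι ⊕ T) ℂ := fun p => yP τ φ p
  let f : S → MvPolynomial (ι ⊕ T) ℂ := fun p => muE Q (fun p => X (Sum.inl p)) Y p.1.1 p.1.2
  have key := vanish (k := ℂ) (ι := ι) (T := T) (S := S) wE (phE B E)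
    (fun p => by rw [phE_wE]; norm_num) τ α f ?_ ?_
  · have key2 := k_to_coh (ell Q) wE α {Z | ∀ j : T, ¬ Disjoint (τ j) Z} (by simpa using key)
    have hD : ∏ a : S, (ell Q (α a) : SS B Λ) = Q.D := by
      rw [QD.D, Finset.prod_subtype (Q.Prs.filter (fun p => p.1 ≠ p.2)) (fun x => Iff.rfl)
        (fun p => (X p.1 - X p.2 : SS B Λ))]
      exact Finset.prod_congr rfl fun a _ => ell_root Q _ _
    rw [hD] at key2
    refine (Ideal.span_le.mpr ?_) key2
    rintro g ⟨Z, hZ, rfl⟩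
    -- the complement of `Z` is not admissible
    have hna : ¬ adm (Q.Wt \ Z) := fun hadm =>
      hZ ⟨Q.Wt \ Z, hadm⟩ Finset.sdiff_disjoint
    have : ∃ U : Finset B, (∀ e ∈ Q.Wt \ Z, (e.2.1 ∈ U ↔ ∃ r ∈ U, e.2.2 = some r)) ∧
        ∑ r ∈ U, ν r ≠ 0 := by
      by_contra hcon
      push Not at hcon
      obtain ⟨ψ, h1, h2⟩ := exists_flow (fun e : ι => e.2.1) (fun e => e.2.2) ν (Q.Wt \ Z) hcon
      exact hna ⟨Finset.sdiff_subset, ψ, h1, h2⟩
    obtain ⟨U, hU, hU0⟩ := this
    have hsub : Q.Wt.filter (fun p => ¬ (p.2.1 ∈ U ↔ ∃ b ∈ U, p.2.2 = some b)) ⊆ Z := by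
      intro p hp
      rw [Finset.mem_filter] at hp
      by_contra hpZ
      exact hp.2 (hU p (Finset.mem_sdiff.mpr ⟨hp.1, hpZ⟩))
    have hdvd : Q.cut U ∣ ∏ p ∈ Z, ell Q (wE p) := by
      have h1 := Finset.prod_dvd_prod_of_subset _ _ (fun p => Q.xi p) hsub
      have h2 : ∏ p ∈ Z, ell Q (wE p) = ∏ p ∈ Z, Q.xi p :=
        Finset.prod_congr rfl fun p _ => ell_wE Q p
      rw [h2]
      exact h1
    exact Ideal.mem_of_dvd _ hdvd (Ideal.subset_span ⟨U, hU0, rfl⟩)
  · -- homogeneity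
    intro a
    set W : ι ⊕ T → ((B → ℤ) × (E → ℤ)) × ℤ :=
      Sum.elim (fun p => (wE p, (0 : ℤ))) (fun j => (- ∑ p ∈ τ j, wE p, (1 : ℤ))) with hW
    have hx : ∀ p : ι, IsWeightedHomogeneous W (X (Sum.inl p) : MvPolynomial (ι ⊕ T) ℂ)
        (wE p, 0) := fun p => isWeightedHomogeneous_X ℂ W (Sum.inl p)
    have hY : ∀ p : ι, IsWeightedHomogeneous W (Y p) (- wE p, 1) := by
      intro p
      refine IsWeightedHomogeneous.sum _ _ _ fun j _ => ?_
      split_ifs with hp
      · have h1 := (isWeightedHomogeneous_X ℂ W (Sum.inr j)).mul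
          (((IsWeightedHomogeneous.prod ((τ j).erase p) (fun p' => X (Sum.inl p'))
            (fun p' => (wE p', 0)) fun p' _ => hx p')).C_mul ((φ j p : ℚ) : ℂ))
        convert h1 using 1
        rw [hW]
        simp only [Sum.elim_inr]
        have h2 := Finset.add_sum_erase (τ j) (fun p' => wE (B := B) (E := E) p') hp
        ext1
        · simp only [Prod.fst_add, Prod.fst_sum]
          rw [← h2]
          abel
        · simp [Prod.snd_sum]
      · exact isWeightedHomogeneous_zero ℂ W _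
    refine IsWeightedHomogeneous.sub ?_ ?_
    · refine IsWeightedHomogeneous.sum _ _ _ fun p hp => ?_
      rw [Finset.mem_filter] at hp
      have h1 := (hx p).mul (hY (p.1, p.2.1, some a.1.2))
      have h2 : ((wE p, 0) + (- wE (p.1, p.2.1, some a.1.2), 1) :
          ((B → ℤ) × (E → ℤ)) × ℤ) = (α a, 1) := by
        obtain ⟨p1, p2, p3⟩ := p
        simp only at hp
        rw [hp.2]
        simp only [α, wE, Prod.mk_add_mk, zero_add]
        congr 1
        ext x <;> simp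
      rw [h2] at h1
      exact h1
    · refine IsWeightedHomogeneous.sum _ _ _ fun p hp => ?_
      rw [Finset.mem_filter] at hp
      have h1 := (hY p).mul (hx (p.1, a.1.2, p.2.2))
      have h2 : ((- wE p, 1) + (wE (p.1, a.1.2, p.2.2), 0) :
          ((B → ℤ) × (E → ℤ)) × ℤ) = (α a, 1) := by
        obtain ⟨p1, p2, p3⟩ := p
        simp only at hp
        rw [hp.2]
        simp only [α, wE, Prod.mk_add_mk, add_zero]
        congr 1
        ext x <;> simp
      rw [h2] at h1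
      exact h1
  · -- no common zeros
    intro z hz
    by_contra hs
    apply h
    set c := eval z (sec ℂ τ) with hc
    let x : ι → ℂ := fun p => z (Sum.inl p)
    let y : ι → ℂ := fun p => eval z (Y p)
    have hlin : ∀ b b', muE Q x (fun p => y p / c) b b' = muE Q x y b b' / c := by
      intro b b'
      simp only [muE, sub_div, Finset.sum_div]
      congr 1
      · exact Finset.sum_congr rfl fun p _ => by ring
      · exact Finset.sum_congr rfl fun p _ => by ring
    have hdiag : ∀ b, muE Q x y b b = c * ν b := fun b =>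
      muE_diag Q τ φ hτW hφ0 ν hφ z b
    refine ⟨x, fun p => y p / c, fun b b' hbb => ?_⟩
    rw [hlin]
    split_ifs with heq
    · subst heq
      rw [hdiag, mul_div_cancel_left₀ _ hs]
    · have hmem : (b, b') ∈ Q.Prs.filter (fun p => p.1 ≠ p.2) := by
        simp [QD.Prs, hbb, heq]
      have h1 := hz ⟨(b, b'), hmem⟩
      have h2 : eval z (f ⟨(b, b'), hmem⟩) = muE Q x y b b' := by
        simp only [f, muE, map_sub, map_sum, map_mul, eval_X, x, y]
      rw [← h2, h1, zero_div]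

end Vale.Agent.P291.Link
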