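import Vale.Agent.P291.Link.LCore

/-!
# P291, block LINK: transport and direct sums of representations
-/

namespace Vale.Agent.P291.Link

section

variable {k : Type} [Field k] {I E L : Type} {s t : E → I} {c : L → I} {V V' : I → Type}
  [∀ i, AddCommGroup (V i)] [∀ i, Module k (V i)] [∀ i, AddCommGroup (V' i)]
  [∀ i, Module k (V' i)]

/-- `ν`-stability (numerical criterion) -/
def Rp.St [Fintype I] (z : Rp k s t c V) (ν : I → ℤ) : Prop :=
  ∀ U : ∀ i, Submodule k (V i), z.Sub U →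
    ((∀ l, U (c l) ≤ LinearMap.ker (z.j l)) → (∃ i, U i ≠ ⊥) →
      0 < ∑ i, ν i * (Module.finrank k (U i) : ℤ)) ∧
    ((∀ l, z.i l ∈ U (c l)) → (∃ i, U i ≠ ⊤) →
      ∑ i, ν i * ((Module.finrank k (V i) : ℤ) - Module.finrank k (U i)) < 0)

/-- transport of structure -/
def Rp.map (z : Rp k s t c V) (φ : ∀ i, V i ≃ₗ[k] V' i) : Rp k s t c V' where
  x e := (φ (t e)).toLinearMap ∘ₗ z.x e ∘ₗ (φ (s e)).symm.toLinearMap
  y e := (φ (s e)).toLinearMap ∘ₗ z.y e ∘ₗ (φ (t e)).symm.toLinearMap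
  j l := z.j l ∘ₗ (φ (c l)).symm.toLinearMap
  i l := φ (c l) (z.i l)

theorem Rp.mu_map [Fintype E] [Fintype L] (z : Rp k s t c V) (φ : ∀ i, V i ≃ₗ[k] V' i)
    (ξ : ∀ i, V' i →ₗ[k] V' i) :
    (z.map φ).mu ξ = z.mu (fun i => (φ i).symm.toLinearMap ∘ₗ ξ i ∘ₗ (φ i).toLinearMap) := by
  unfold Rp.mu
  have h1 : ∀ e, LinearMap.trace k _ ((z.map φ).y e ∘ₗ (ξ (t e) ∘ₗ (z.map φ).x e -
      (z.map φ).x e ∘ₗ ξ (s e))) = LinearMap.trace k _ (z.y e ∘ₗ
        (((φ (t e)).symm.toLinearMap ∘ₗ ξ (t e) ∘ₗ (φ (t e)).toLinearMap) ∘ₗ z.x e -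
          z.x e ∘ₗ ((φ (s e)).symm.toLinearMap ∘ₗ ξ (s e) ∘ₗ (φ (s e)).toLinearMap))) := by
    intro e
    rw [← LinearMap.trace_conj' (z.y e ∘ₗ _) (φ (s e))]
    congr 1
    ext v
    simp [Rp.map, LinearEquiv.conj_apply]
  have h2 : ∀ l, (z.map φ).j l (ξ (c l) ((z.map φ).i l)) = z.j l (((φ (c l)).symm.toLinearMap ∘ₗ
      ξ (c l) ∘ₗ (φ (c l)).toLinearMap) (z.i l)) := by
    intro l
    simp [Rp.map]
  rw [Finset.sum_congr rfl fun e _ => h1 e, Finset.sum_congr rfl fun l _ => h2 l]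

theorem Rp.SS_map [Fintype I] (z : Rp k s t c V) (φ : ∀ i, V i ≃ₗ[k] V' i) {ν : I → ℤ}
    (h : z.SS ν) : (z.map φ).SS ν := by
  intro U hU
  have hf : ∀ i, Module.finrank k ((U i).comap (φ i).toLinearMap) = Module.finrank k (U i) :=
    fun i => by
      have h1 : (U i).comap (φ i).toLinearMap = (U i).map (φ i).symm.toLinearMap := by
        ext v
        simp
      rw [h1]
      exact LinearEquiv.finrank_map_eq (φ i).symm (U i)
  have hV : ∀ i, Module.finrank k (V i) = Module.finrank k (V' i) :=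
    fun i => LinearEquiv.finrank_eq (φ i)
  have hsub : z.Sub (fun i => (U i).comap (φ i).toLinearMap) := by
    constructor
    · intro e v hv
      have := hU.1 e hv
      simpa [Rp.map] using this
    · intro e v hv
      have := hU.2 e hv
      simpa [Rp.map] using this
  have h1 := h _ hsub
  simp only [hf, hV] at h1
  refine ⟨fun hj => h1.1 ?_, fun hi => h1.2 ?_⟩
  · intro l v hv
    have := hj l hv
    simpa [Rp.map] using this
  · intro l
    exact hi l

end

section sum

variable {k : Type} [Field k] {I E L : Type} {s t : E → I} {c : L → I} {V V' : I → Type}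
  [∀ i, AddCommGroup (V i)] [∀ i, Module k (V i)] [∀ i, AddCommGroup (V' i)]
  [∀ i, Module k (V' i)]

/-- direct sum of a framed representation and an unframed one -/
def Rp.sum (z : Rp k s t c V) (z' : Rp k s t (fun l : Empty => l.elim) V') :
    Rp k s t c (fun i => V i × V' i) where
  x e := (z.x e).prodMap (z'.x e)
  y e := (z.y e).prodMap (z'.y e)
  j l := z.j l ∘ₗ LinearMap.fst k _ _
  i l := (z.i l, 0)

theorem trace_prod [∀ i, FiniteDimensional k (V i)] [∀ i, FiniteDimensional k (V' i)] (i : I)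
    (f : V i × V' i →ₗ[k] V i × V' i) :
    LinearMap.trace k _ f =
      LinearMap.trace k _ (LinearMap.fst k _ _ ∘ₗ f ∘ₗ LinearMap.inl k _ _) +
      LinearMap.trace k _ (LinearMap.snd k _ _ ∘ₗ f ∘ₗ LinearMap.inr k _ _) := by
  have h : f = f ∘ₗ (LinearMap.inl k (V i) (V' i) ∘ₗ LinearMap.fst k _ _) +
      f ∘ₗ (LinearMap.inr k (V i) (V' i) ∘ₗ LinearMap.snd k _ _) := by
    rw [← LinearMap.comp_add]
    ext <;> simp
  conv_lhs => rw [h]
  rw [map_add]
  congr 1
  · rw [← LinearMap.comp_assoc, LinearMap.trace_comp_comm']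
  · rw [← LinearMap.comp_assoc, LinearMap.trace_comp_comm']

theorem Rp.mu_sum [Fintype E] [Fintype L] [∀ i, FiniteDimensional k (V i)]
    [∀ i, FiniteDimensional k (V' i)] (z : Rp k s t c V)
    (z' : Rp k s t (fun l : Empty => l.elim) V') (ξ : ∀ i, V i × V' i →ₗ[k] V i × V' i) :
    (z.sum z').mu ξ =
      z.mu (fun i => LinearMap.fst k _ _ ∘ₗ ξ i ∘ₗ LinearMap.inl k _ _) +
      z'.mu (fun i => LinearMap.snd k _ _ ∘ₗ ξ i ∘ₗ LinearMap.inr k _ _) := by
  unfold Rp.mu
  have h1 : ∀ e, LinearMap.trace k _ ((z.sum z').y e ∘ₗ (ξ (t e) ∘ₗ (z.sum z').x e -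
      (z.sum z').x e ∘ₗ ξ (s e))) = LinearMap.trace k _ (z.y e ∘ₗ
        ((LinearMap.fst k _ _ ∘ₗ ξ (t e) ∘ₗ LinearMap.inl k _ _) ∘ₗ z.x e -
          z.x e ∘ₗ (LinearMap.fst k _ _ ∘ₗ ξ (s e) ∘ₗ LinearMap.inl k _ _))) +
      LinearMap.trace k _ (z'.y e ∘ₗ
        ((LinearMap.snd k _ _ ∘ₗ ξ (t e) ∘ₗ LinearMap.inr k _ _) ∘ₗ z'.x e -
          z'.x e ∘ₗ (LinearMap.snd k _ _ ∘ₗ ξ (s e) ∘ₗ LinearMap.inr k _ _))) := by
    intro e
    rw [trace_prod]
    congr 2 <;>
    · ext v
      simp [Rp.sum]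
  have h2 : ∀ l, (z.sum z').j l (ξ (c l) ((z.sum z').i l)) =
      z.j l ((LinearMap.fst k _ _ ∘ₗ ξ (c l) ∘ₗ LinearMap.inl k _ _) (z.i l)) := by
    intro l
    simp [Rp.sum]
  rw [Finset.sum_congr rfl fun e _ => h1 e, Finset.sum_congr rfl fun l _ => h2 l,
    Finset.sum_add_distrib]
  simp
  ring

theorem finrank_split {W W' : Type} [AddCommGroup W] [Module k W] [AddCommGroup W'] [Module k W']
    [FiniteDimensional k W] [FiniteDimensional k W'] (U : Submodule k (W × W')) :
    Module.finrank k U = Module.finrank k (U.comap (LinearMap.inl k W W')) +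
      Module.finrank k (U.map (LinearMap.snd k W W')) := by
  have h := LinearMap.finrank_range_add_finrank_ker ((LinearMap.snd k W W').domRestrict U)
  have h1 : LinearMap.range ((LinearMap.snd k W W').domRestrict U) =
      U.map (LinearMap.snd k W W') := by
    rw [LinearMap.range_domRestrict]
  have h2 : Module.finrank k (LinearMap.ker ((LinearMap.snd k W W').domRestrict U)) =
      Module.finrank k (U.comap (LinearMap.inl k W W')) := by
    refine LinearEquiv.finrank_eq (LinearEquiv.ofLinearMap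
      (LinearMap.codRestrict _ ((LinearMap.fst k W W').comp
        (U.subtype.comp (Submodule.subtype _))) ?_)
      (LinearMap.codRestrict _ (LinearMap.codRestrict U ((LinearMap.inl k W W').comp
        (Submodule.subtype _)) fun v => v.2) ?_) ?_ ?_)
    · rintro ⟨⟨⟨a, b⟩, hu⟩, hk⟩
      have : b = 0 := by simpa using hk
      subst this
      simpa using hu
    · rintro ⟨a, ha⟩
      simp only [LinearMap.mem_ker]
      rfl
    · ext ⟨a, ha⟩
      rfl
    · ext ⟨⟨⟨a, b⟩, hu⟩, hk⟩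
      · rfl
      · have : b = 0 := by simpa using hk
        subst this
        rfl
  rw [h1, h2] at h
  omega

theorem Rp.SS_sum [Fintype I] [∀ i, FiniteDimensional k (V i)] [∀ i, FiniteDimensional k (V' i)]
    (z : Rp k s t c V) (z' : Rp k s t (fun l : Empty => l.elim) V') {ν : I → ℤ}
    (hν : ∑ i, ν i * (Module.finrank k (V' i) : ℤ) = 0) (h : z.SS ν) (h' : z'.SS ν) :
    (z.sum z').SS ν := by
  intro U hU
  have hs0 : z.Sub (fun i => (U i).comap (LinearMap.inl k (V i) (V' i))) := by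
    constructor
    · intro e v hv
      have := hU.1 e hv
      simpa [Rp.sum] using this
    · intro e v hv
      have := hU.2 e hv
      simpa [Rp.sum] using this
  have hs1 : z'.Sub (fun i => (U i).map (LinearMap.snd k (V i) (V' i))) := by
    constructor
    · rintro e _ ⟨⟨v, v'⟩, hv, rfl⟩
      exact ⟨_, hU.1 e hv, rfl⟩
    · rintro e _ ⟨⟨v, v'⟩, hv, rfl⟩
      exact ⟨_, hU.2 e hv, rfl⟩
  have h1 := (h' _ hs1).1 (fun l => l.elim)
  have h0 := h _ hs0
  have hd : ∑ i, ν i * (Module.finrank k (U i) : ℤ) =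
      ∑ i, ν i * (Module.finrank k ((U i).comap (LinearMap.inl k (V i) (V' i))) : ℤ) +
      ∑ i, ν i * (Module.finrank k ((U i).map (LinearMap.snd k (V i) (V' i))) : ℤ) := by
    rw [← Finset.sum_add_distrib]
    refine Finset.sum_congr rfl fun i _ => ?_
    rw [finrank_split (U i)]
    push_cast
    ring
  constructor
  · intro hj
    rw [hd]
    have := h0.1 fun l v hv => by
      have := hj l hv
      simpa [Rp.sum] using this
    linarith
  · intro hi
    have h2 := h0.2 fun l => hi l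
    have h3 : ∑ i, ν i * ((Module.finrank k (V i × V' i) : ℤ) - Module.finrank k (U i)) =
        ∑ i, ν i * ((Module.finrank k (V i) : ℤ) -
          Module.finrank k ((U i).comap (LinearMap.inl k (V i) (V' i)))) +
        ∑ i, ν i * (Module.finrank k (V' i) : ℤ) -
        ∑ i, ν i * (Module.finrank k ((U i).map (LinearMap.snd k (V i) (V' i))) : ℤ) := by
      rw [← Finset.sum_add_distrib, ← Finset.sum_sub_distrib]
      refine Finset.sum_congr rfl fun i _ => ?_
      rw [finrank_split (U i), Module.finrank_prod]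
      push_cast
      ring
    rw [h3, hν]
    linarith

theorem Rp.not_St_sum [Fintype I] [∀ i, FiniteDimensional k (V i)]
    [∀ i, FiniteDimensional k (V' i)]
    (z : Rp k s t c V) (z' : Rp k s t (fun l : Empty => l.elim) V') {ν : I → ℤ}
    (hν : ∑ i, ν i * (Module.finrank k (V' i) : ℤ) = 0)
    (hne : ∃ i, Module.finrank k (V' i) ≠ 0) : ¬ (z.sum z').St ν := by
  intro h
  have h1 := (h (fun i => LinearMap.range (LinearMap.inl k (V i) (V' i))) ⟨?_, ?_⟩).2 ?_ ?_
  · have h3 : ∀ i, Module.finrank k (LinearMap.range (LinearMap.inl k (V i) (V' i))) =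
        Module.finrank k (V i) := fun i =>
      LinearMap.finrank_range_of_inj LinearMap.inl_injective
    have h4 : ∑ i, ν i * ((Module.finrank k (V i × V' i) : ℤ) -
        Module.finrank k (LinearMap.range (LinearMap.inl k (V i) (V' i)))) =
        ∑ i, ν i * (Module.finrank k (V' i) : ℤ) := by
      refine Finset.sum_congr rfl fun i _ => ?_
      rw [h3, Module.finrank_prod]
      push_cast
      ring
    rw [h4, hν] at h1
    exact lt_irrefl _ h1
  · rintro e _ ⟨v, rfl⟩
    exact ⟨z.x e v, by simp [Rp.sum]⟩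
  · rintro e _ ⟨v, rfl⟩
    exact ⟨z.y e v, by simp [Rp.sum]⟩
  · intro l
    exact ⟨z.i l, rfl⟩
  · obtain ⟨i, hi⟩ := hne
    refine ⟨i, fun htop => hi ?_⟩
    have : ∀ v' : V' i, v' = 0 := by
      intro v'
      have h5 : ((0 : V i), v') ∈ LinearMap.range (LinearMap.inl k (V i) (V' i)) := by
        rw [htop]; trivial
      obtain ⟨v, hv⟩ := h5
      have := congrArg Prod.snd hv
      simpa using this.symm
    exact Module.finrank_eq_zero_iff_isTorsion.mpr (fun v' => by
      exact ⟨1, by simpa using this v'⟩)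

theorem Rp.St_of_map [Fintype I] (z : Rp k s t c V) (φ : ∀ i, V i ≃ₗ[k] V' i) {ν : I → ℤ}
    (h : (z.map φ).St ν) : z.St ν := by
  intro U hU
  have hf : ∀ i, Module.finrank k ((U i).map (φ i).toLinearMap) = Module.finrank k (U i) :=
    fun i => LinearEquiv.finrank_map_eq (φ i) (U i)
  have hV : ∀ i, Module.finrank k (V i) = Module.finrank k (V' i) :=
    fun i => LinearEquiv.finrank_eq (φ i)
  have hsub : (z.map φ).Sub (fun i => (U i).map (φ i).toLinearMap) := by
    constructor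
    · rintro e _ ⟨v, hv, rfl⟩
      have := hU.1 e hv
      exact ⟨z.x e v, this, by simp [Rp.map]⟩
    · rintro e _ ⟨v, hv, rfl⟩
      have := hU.2 e hv
      exact ⟨z.y e v, this, by simp [Rp.map]⟩
  have h1 := h _ hsub
  simp only [hf, ← hV] at h1
  refine ⟨fun hj hne => h1.1 ?_ ?_, fun hi hne => h1.2 ?_ ?_⟩
  · rintro l _ ⟨v, hv, rfl⟩
    have := hj l hv
    simpa [Rp.map] using this
  · obtain ⟨i, hi⟩ := hne
    exact ⟨i, fun h2 => hi (by
      rw [Submodule.map_eq_bot_iff] at h2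
      simpa using h2)⟩
  · intro l
    exact ⟨_, hi l, rfl⟩
  · obtain ⟨i, hi⟩ := hne
    refine ⟨i, fun h2 => hi ?_⟩
    rw [eq_top_iff]
    intro v _
    have : φ i v ∈ (U i).map (φ i).toLinearMap := by rw [h2]; trivial
    obtain ⟨u, hu, huv⟩ := this
    have := (φ i).injective huv
    rwa [← this]

end sum

end Vale.Agent.P291.Link
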