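import Mathlib

/-!
# P291, block LINK: definitions (frozen)

Part L1: framed representations of the doubled quiver.
Part L2: modules over a polynomial ring graded by an abelian group, Hilbert functions.
-/

open MvPolynomial

namespace Vale.Agent.P291.Link

section L1

variable {k : Type} [Field k] {I E L : Type} {s t : E → I} {c : L → I} {V : I → Type}
  [∀ i, AddCommGroup (V i)] [∀ i, Module k (V i)]

/-- A point of `N ⊕ N^*`, `N = ⨁_e Hom(V_{s e}, V_{t e}) ⊕ ⨁_l Hom(V_{c l}, k)` (`L` is the set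
of framing lines). -/
structure Rp (k : Type) [Field k] {I E L : Type} (s t : E → I) (c : L → I) (V : I → Type)
    [∀ i, AddCommGroup (V i)] [∀ i, Module k (V i)] where
  /-- the arrows -/
  x : ∀ e, V (s e) →ₗ[k] V (t e)
  /-- the opposite arrows -/
  y : ∀ e, V (t e) →ₗ[k] V (s e)
  /-- the lines out of the `V_i` -/
  j : ∀ l, V (c l) →ₗ[k] k
  /-- the lines into the `V_i` -/
  i : ∀ l, V (c l)

/-- The moment map `⟨μ(s,p), ξ⟩ = ⟨p, ξ s⟩`. -/
noncomputable def Rp.mu [Fintype E] [Fintype L] (z : Rp k s t c V) (ξ : ∀ i, V i →ₗ[k] V i) : k :=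
  ∑ e, LinearMap.trace k _ (z.y e ∘ₗ (ξ (t e) ∘ₗ z.x e - z.x e ∘ₗ ξ (s e))) -
    ∑ l, z.j l (ξ (c l) (z.i l))

/-- subrepresentations (without condition on the framing) -/
def Rp.Sub (z : Rp k s t c V) (U : ∀ i, Submodule k (V i)) : Prop :=
  (∀ e, U (s e) ≤ (U (t e)).comap (z.x e)) ∧ ∀ e, U (t e) ≤ (U (s e)).comap (z.y e)

/-- `ν`-semistability (numerical criterion) -/
def Rp.SS [Fintype I] (z : Rp k s t c V) (ν : I → ℤ) : Prop :=
  ∀ U : ∀ i, Submodule k (V i), z.Sub U →
    ((∀ l, U (c l) ≤ LinearMap.ker (z.j l)) → 0 ≤ ∑ i, ν i * (Module.finrank k (U i) : ℤ)) ∧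
    ((∀ l, z.i l ∈ U (c l)) →
      ∑ i, ν i * ((Module.finrank k (V i) : ℤ) - Module.finrank k (U i)) ≤ 0)

end L1

section L2

/-- A grading by `Γ` of a module over the polynomial ring, compatible with the weights `wt` of
the variables, given by its projections. -/
structure Gr {k σ Γ : Type} [Field k] [AddCommGroup Γ] (wt : σ → Γ) (M : Type)
    [AddCommGroup M] [Module k M] [Module (MvPolynomial σ k) M] where
  /-- projection to the part of weight `γ` -/
  pr : Γ → M →ₗ[k] M
  idem : ∀ γ m, pr γ (pr γ m) = pr γ m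
  orth : ∀ γ δ m, γ ≠ δ → pr γ (pr δ m) = 0
  fin : ∀ m, ∃ s : Finset Γ, m = ∑ γ ∈ s, pr γ m
  smul : ∀ v γ m, pr γ ((X v : MvPolynomial σ k) • m) = (X v : MvPolynomial σ k) • pr (γ - wt v) m

variable {k σ Γ : Type} [Field k] [AddCommGroup Γ] {wt : σ → Γ} {M : Type}
  [AddCommGroup M] [Module k M] [Module (MvPolynomial σ k) M]

/-- graded submodule -/
def Gr.Hom (G : Gr (k := k) wt M) (N : Submodule (MvPolynomial σ k) M) : Prop :=
  ∀ γ, ∀ m ∈ N, G.pr γ m ∈ N

/-- `a` acts as a homogeneous element of weight `δ` -/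
def Gr.IsH (G : Gr (k := k) wt M) (a : MvPolynomial σ k) (δ : Γ) : Prop :=
  ∀ γ m, G.pr γ (a • m) = a • G.pr (γ - δ) m

/-- Hilbert function -/
noncomputable def Gr.h (G : Gr (k := k) wt M) (γ : Γ) : ℤ :=
  Module.finrank k (LinearMap.range (G.pr γ))

/-- the induced grading on a graded submodule -/
noncomputable def Gr.sub [IsScalarTower k (MvPolynomial σ k) M] (G : Gr (k := k) wt M)
    (N : Submodule (MvPolynomial σ k) M) (hN : G.Hom N) : Gr (k := k) wt N where
  pr γ := ((G.pr γ).comp (N.restrictScalars k).subtype).codRestrict (N.restrictScalars k)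
    (fun m => hN γ _ m.2)
  idem γ m := Subtype.ext (G.idem γ _)
  orth γ δ m h := Subtype.ext (G.orth γ δ _ h)
  fin m := by
    obtain ⟨s, hs⟩ := G.fin m
    refine ⟨s, Subtype.ext ?_⟩
    simp only [Submodule.coe_sum]
    exact hs
  smul v γ m := Subtype.ext (G.smul v γ _)

/-- the induced grading on a quotient by a graded submodule -/
noncomputable def Gr.quo [IsScalarTower k (MvPolynomial σ k) M] (G : Gr (k := k) wt M)
    (N : Submodule (MvPolynomial σ k) M) (hN : G.Hom N) : Gr (k := k) wt (M ⧸ N) where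
  pr γ := ((N.restrictScalars k).mapQ (N.restrictScalars k) (G.pr γ) (fun m hm => hN γ m hm) :)
  idem γ m := by
    obtain ⟨m, rfl⟩ := Submodule.Quotient.mk_surjective N m
    exact congrArg (Submodule.Quotient.mk (p := N)) (G.idem γ m)
  orth γ δ m h := by
    obtain ⟨m, rfl⟩ := Submodule.Quotient.mk_surjective N m
    exact congrArg (Submodule.Quotient.mk (p := N)) (G.orth γ δ m h)
  fin m := by
    obtain ⟨m, rfl⟩ := Submodule.Quotient.mk_surjective N m
    obtain ⟨s, hs⟩ := G.fin m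
    refine ⟨s, ?_⟩
    have := congrArg (Submodule.Quotient.mk (p := N)) hs
    rw [this]
    show N.mkQ _ = _
    rw [map_sum]
    refine Finset.sum_congr rfl fun γ _ => ?_
    show _ = (N.mkQ (G.pr γ (∑ γ ∈ s, G.pr γ m)))
    rw [← hs]
  smul v γ m := by
    obtain ⟨m, rfl⟩ := Submodule.Quotient.mk_surjective N m
    exact congrArg (Submodule.Quotient.mk (p := N)) (G.smul v γ m)

/-- multiplication by `a` -/
noncomputable def mulL (M : Type) [AddCommGroup M] [Module (MvPolynomial σ k) M] (a : MvPolynomial σ k) :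
    M →ₗ[MvPolynomial σ k] M := LinearMap.lsmul (MvPolynomial σ k) M a

/-- convolution of a Laurent polynomial and a function -/
noncomputable def cv (f : AddMonoidAlgebra ℤ Γ) (h : Γ → ℤ) : Γ → ℤ :=
  fun γ => f.coeff.sum fun δ c => c * h (γ - δ)

/-- `1 - e^γ` -/
noncomputable def om (γ : Γ) : AddMonoidAlgebra ℤ Γ := 1 - AddMonoidAlgebra.single γ 1

/-- `∏_v (1 - e^{wt v})`, the inverse of the Hilbert series of the polynomial ring -/
noncomputable def PP [Fintype σ] (wt : σ → Γ) : AddMonoidAlgebra ℤ Γ := ∏ v, om (wt v)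

/-- the K-class of `h` lies in the ideal `J` -/
def InS [Fintype σ] (wt : σ → Γ) (J : Ideal (AddMonoidAlgebra ℤ Γ)) (h : Γ → ℤ) : Prop :=
  ∃ f ∈ J, cv (PP wt) h = f.coeff

end L2

end Vale.Agent.P291.Link
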